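import Crest.Agent.X212.Mor94.Bas

/-!
# Row 212, PERF-MORSE (helper94): dynamics of a gradient-like field `Mo`

`f` grows along orbits; the stable (unstable) set of a saddle consists of the saddle and of the two
orbits through `Q q (± i / 2)` (`Q p (± 1 / 2)`).
-/

set_option autoImplicit false
set_option linter.unusedSectionVars false
noncomputable section
open Set Filter Topology Function Metric
open scoped ContDiff Manifold

namespace Crest.Agent.X212.Mor94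
open Prf6 Flo26

theorem norm_lt_iff {z : ℂ} {r : ℝ} (hr : 0 < r) : ‖z‖ < r ↔ z.re ^ 2 + z.im ^ 2 < r ^ 2 := by
  rw [← sq_lt_sq₀ (norm_nonneg z) hr.le, Complex.sq_norm, Complex.normSq_apply]
  ring_nf

/-- abstract stable manifold lemma for a flow that is linear hyperbolic in a chart -/
theorem trap {M : Type*} [TopologicalSpace M] {F : ℝ → M → M} {Q : ℝ → ℝ → M}
    (hadd : ∀ s t x, F (s + t) x = F s (F t x)) (h0 : ∀ x, F 0 x = x)
    (hlin : ∀ u w T, (∀ s ∈ uIcc 0 T, (u * Real.exp s) ^ 2 + (w * Real.exp (-s)) ^ 2 < 1) →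
      F T (Q u w) = Q (u * Real.exp T) (w * Real.exp (-T)))
    (hinj : ∀ u w u' w', u ^ 2 + w ^ 2 < 1 → u' ^ 2 + w' ^ 2 < 1 → Q u w = Q u' w' → u = u')
    (hn : {y | ∃ u w, u ^ 2 + w ^ 2 < (1 / 2) ^ 2 ∧ Q u w = y} ∈ 𝓝 (Q 0 0)) {x : M}
    (hx : Tendsto (fun t => F t x) atTop (𝓝 (Q 0 0))) :
    x = Q 0 0 ∨ ∃ σ : ℝ, (σ = 1 ∨ σ = -1) ∧ ∃ t, F t (Q 0 (σ / 2)) = x := by
  obtain ⟨T, hT⟩ := eventually_atTop.1 (hx.eventually hn)
  obtain ⟨u, w, huw, he⟩ := hT T le_rfl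
  have hback : ∀ y, F T x = y → F (-T) y = x := fun y hy => by
    rw [← hy, ← hadd, neg_add_cancel, h0]
  have hw : ∀ s, 0 ≤ s → (w * Real.exp (-s)) ^ 2 ≤ 1 / 4 := fun s hs => by
    have h1 : Real.exp (-s) ≤ 1 := Real.exp_le_one_iff.2 (by linarith)
    have h2 := Real.exp_pos (-s)
    have h3 : Real.exp (-s) ^ 2 ≤ 1 := by nlinarith
    rw [mul_pow]
    nlinarith [sq_nonneg u, sq_nonneg w]
  have hu : u = 0 := by
    by_contra hu
    have ha : 0 < |u| := abs_pos.2 hu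
    have hb : |u| < 1 / 2 := abs_lt_of_sq_lt_sq (by nlinarith [sq_nonneg w]) (by norm_num)
    set S := Real.log (3 / 4 / |u|) with hS
    have hS0 : 0 ≤ S := Real.log_nonneg (by rw [le_div_iff₀ ha]; linarith)
    have hE : Real.exp S = 3 / 4 / |u| := Real.exp_log (by positivity)
    have hE2 : (u * Real.exp S) ^ 2 = 9 / 16 := by
      rw [hE, mul_pow, ← sq_abs u]; field_simp; norm_num
    have h1 := hlin u w S fun s hs => by
      rw [uIcc_of_le hS0] at hs
      have h2 : Real.exp s ≤ Real.exp S := Real.exp_le_exp.2 hs.2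
      have h3 : (u * Real.exp s) ^ 2 ≤ (u * Real.exp S) ^ 2 := by
        rw [mul_pow, mul_pow]
        exact mul_le_mul_of_nonneg_left (pow_le_pow_left₀ (Real.exp_pos s).le h2 2) (sq_nonneg u)
      linarith [hw s hs.1]
    obtain ⟨u', w', huw', he'⟩ := hT (S + T) (by linarith)
    rw [hadd, ← he, h1] at he'
    have h4 := hinj _ _ _ _ (by linarith) (by linarith [hw S hS0]) he'
    rw [h4] at huw'
    nlinarith [sq_nonneg w']
  subst hu
  by_cases hw0 : w = 0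
  · left
    subst hw0
    rw [← hback _ he.symm, hlin 0 0 (-T) (fun s _ => by simp)]
    simp
  right
  have ha : 0 < |w| := abs_pos.2 hw0
  have hb : |w| < 1 / 2 := abs_lt_of_sq_lt_sq (by nlinarith) (by norm_num)
  set S := -Real.log (2 * |w|) with hS
  have hS0 : 0 ≤ S := neg_nonneg.2 (Real.log_nonpos (by positivity) (by linarith))
  have hE : Real.exp (-S) = 2 * |w| := by rw [hS, neg_neg]; exact Real.exp_log (by positivity)
  obtain ⟨σ, hσ, hσw⟩ : ∃ σ : ℝ, (σ = 1 ∨ σ = -1) ∧ σ * |w| = w := by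
    rcases le_total 0 w with h | h
    · exact ⟨1, Or.inl rfl, by rw [abs_of_nonneg h, one_mul]⟩
    · exact ⟨-1, Or.inr rfl, by rw [abs_of_nonpos h]; ring⟩
  refine ⟨σ, hσ, -T + S, ?_⟩
  rw [hadd, hlin 0 (σ / 2) S fun s hs => ?_]
  · refine hback _ ?_
    rw [← he, hE, zero_mul, show σ / 2 * (2 * |w|) = σ * |w| by ring, hσw]
  · rw [uIcc_of_le hS0] at hs
    have h1 : Real.exp (-s) ≤ 1 := Real.exp_le_one_iff.2 (by linarith [hs.1])
    have h2 := Real.exp_pos (-s)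
    rcases hσ with rfl | rfl <;> nlinarith

variable {M : Type*} [TopologicalSpace M] [ChartedSpace ℂ M] [IsManifold IC ∞ M] [T2Space M]
  [CompactSpace M] {o : Or M} (m : Mo o) {p q x : M}

/-- the linear field of the chart at `p` -/
def lv (a b : ℝ) (z : ℂ) : ℂ := ⟨a * z.re, b * z.im⟩

theorem ch (hp : p ∈ m.C) : Ch (m.Q p) (ball 0 1) :=
  ⟨isOpen_ball, fun z hz => (m.pos p hp z (mem_ball_zero_iff.1 hz)).1, m.inj p hp⟩

theorem vQ (hp : p ∈ m.C) (z : ℂ) (hz : z ∈ ball (0 : ℂ) 1) :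
    m.v (m.Q p z) = dQ (m.Q p) z (lv (m.a p) (m.b p) z) := m.vQ p hp z (mem_ball_zero_iff.1 hz)

theorem cpl : Cpl m.v := complete_of_compactSpace m.smv

theorem fl_add' (s t : ℝ) (x : M) : fl m.v (s + t) x = fl m.v s (fl m.v t x) :=
  (cpl m).add m.smv s t x

theorem v_crit (hp : p ∈ m.C) : m.v p = 0 := by
  have h := vQ m hp 0 (mem_ball_self one_pos)
  have h1 : lv (m.a p) (m.b p) 0 = 0 := by simp [lv, Complex.ext_iff]
  rw [h1, dQ_zero] at h
  have h2 : (m.v p : ℂ) = m.v (m.Q p 0) := congrArg (fun y => (m.v y : ℂ)) (m.ctr p hp).symm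
  exact h2.trans h

theorem fl_crit (hp : p ∈ m.C) (t : ℝ) : fl m.v t p = p := (fl_of_zero m.smv (v_crit m hp) t).2

theorem fl_notMem (hx : x ∉ m.C) (t : ℝ) : fl m.v t x ∉ m.C := fun h => by
  have h1 := fl_crit m h (-t)
  rw [← fl_add', neg_add_cancel, fl_zero m.smv] at h1
  exact hx (h1 ▸ h)

theorem f_strict (hx : x ∉ m.C) : StrictMono fun t => m.f (fl m.v t x) := by
  have h := fun t => hasDerivAt_comp_fl m.smv (cpl m (t, x)) (f := m.f)
    ((m.smf _).mdifferentiableAt (by simp))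
  refine strictMono_of_deriv_pos fun t => ?_
  rw [(h t).deriv]
  exact m.up _ (fl_notMem m hx t)

theorem f_mono (x : M) : Monotone fun t => m.f (fl m.v t x) := by
  by_cases hx : x ∈ m.C
  · simp only [fl_crit m hx]; exact monotone_const
  · exact (f_strict m hx).monotone

theorem f_le {t : ℝ} (ht : 0 ≤ t) (x : M) : m.f x ≤ m.f (fl m.v t x) := by
  simpa only [fl_zero m.smv] using f_mono m x ht

/-- an orbit meets a level at most once -/
theorem eq_of_f_eq {s t : ℝ} (h : m.f (fl m.v s x) = m.f (fl m.v t x)) :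
    fl m.v s x = fl m.v t x := by
  by_cases hx : x ∈ m.C
  · simp only [fl_crit m hx]
  · rw [(f_strict m hx).injective h]

theorem sad (hp : p ∈ m.C) (hs : m.a p ≠ m.b p) : m.a p = 1 ∧ m.b p = -1 := by
  rcases m.ab p hp with h | h | h
  · exact (hs (h.1.trans h.2.symm)).elim
  · exact (hs (h.1.trans h.2.symm)).elim
  · exact h

theorem hasDerivAt_mk {u w : ℝ → ℝ} {u' w' t : ℝ} (hu : HasDerivAt u u' t) (hw : HasDerivAt w w' t) :
    HasDerivAt (fun s => (⟨u s, w s⟩ : ℂ)) (⟨u', w'⟩ : ℂ) t :=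
  Complex.equivRealProdCLM.symm.hasFDerivAt.comp_hasDerivAt t (hu.prodMk hw)

/-- the flow in the chart of a saddle -/
theorem fl_lin (hp : p ∈ m.C) (hs : m.a p ≠ m.b p) (u w T : ℝ)
    (h : ∀ s ∈ uIcc 0 T, (u * Real.exp s) ^ 2 + (w * Real.exp (-s)) ^ 2 < 1) :
    fl m.v T (m.Q p ⟨u, w⟩) = m.Q p ⟨u * Real.exp T, w * Real.exp (-T)⟩ := by
  have h1 := (ch m hp).fl_curve m.smv (vQ m hp)
    (g := fun s => (⟨u * Real.exp s, w * Real.exp (-s)⟩ : ℂ)) (T := T) (fun s => ?_) fun s hs => ?_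
  · simpa using h1
  · have h2 := hasDerivAt_mk ((Real.hasDerivAt_exp s).const_mul u)
      (((hasDerivAt_neg s).exp).const_mul w)
    convert h2 using 1
    simp [lv, sad m hp hs]
  · rw [mem_ball_zero_iff, norm_lt_iff one_pos]
    simpa using h s hs

theorem Q_nhds (hp : p ∈ m.C) : m.Q p '' ball 0 (1 / 2) ∈ 𝓝 (m.Q p 0) :=
  (ch m hp).image_nhds (mem_ball_self one_pos) (ball_mem_nhds _ (by norm_num))

theorem Q_inj (hp : p ∈ m.C) {u w u' w' : ℝ} (h : u ^ 2 + w ^ 2 < 1) (h' : u' ^ 2 + w' ^ 2 < 1)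
    (he : m.Q p ⟨u, w⟩ = m.Q p ⟨u', w'⟩) : u = u' ∧ w = w' := by
  have := m.inj p hp (by rw [mem_ball_zero_iff, norm_lt_iff one_pos]; simpa using h)
    (by rw [mem_ball_zero_iff, norm_lt_iff one_pos]; simpa using h') he
  exact ⟨congrArg Complex.re this, congrArg Complex.im this⟩

/-- the stable set of a saddle -/
theorem stable (hq : q ∈ m.C) (hs : m.a q ≠ m.b q)
    (hx : Tendsto (fun t => fl m.v t x) atTop (𝓝 q)) :
    x = q ∨ ∃ σ : ℝ, (σ = 1 ∨ σ = -1) ∧ ∃ t, fl m.v t (m.Q q ⟨0, σ / 2⟩) = x := by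
  have hc : m.Q q ⟨0, 0⟩ = q := m.ctr q hq
  have := trap (F := fl m.v) (Q := fun u w => m.Q q ⟨u, w⟩) (x := x) (fl_add' m) (fl_zero m.smv)
    (fl_lin m hq hs) (fun u w u' w' h h' he => (Q_inj m hq h h' he).1)
    (mem_of_superset (Q_nhds m hq) ?_) (by rwa [hc])
  · rwa [hc] at this
  · rintro _ ⟨z, hz, rfl⟩
    exact ⟨z.re, z.im, (norm_lt_iff (by norm_num)).1 (mem_ball_zero_iff.1 hz), rfl⟩

/-- the unstable set of a saddle -/
theorem unstable (hp : p ∈ m.C) (hs : m.a p ≠ m.b p)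
    (hx : Tendsto (fun t => fl m.v t x) atBot (𝓝 p)) :
    x = p ∨ ∃ σ : ℝ, (σ = 1 ∨ σ = -1) ∧ ∃ t, fl m.v t (m.Q p ⟨σ / 2, 0⟩) = x := by
  have hc : m.Q p ⟨0, 0⟩ = p := m.ctr p hp
  have := trap (F := fun t => fl m.v (-t)) (Q := fun u w => m.Q p ⟨w, u⟩) (x := x)
    (fun s t y => by rw [← fl_add', neg_add]) (fun y => by rw [neg_zero, fl_zero m.smv])
    (fun u w T h => ?_) (fun u w u' w' h h' he => (Q_inj m hp (by linarith) (by linarith) he).2)
    (mem_of_superset (Q_nhds m hp) ?_) (by rw [hc]; exact hx.comp tendsto_neg_atTop_atBot)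
  · rw [hc] at this
    exact this.imp id fun ⟨σ, hσ, t, ht⟩ => ⟨σ, hσ, -t, ht⟩
  · rw [fl_lin m hp hs w u (-T) fun s hs' => ?_, neg_neg]
    have := h (-s) (by
      rw [mem_uIcc] at hs' ⊢
      rcases hs' with h | h
      · right; constructor <;> linarith [h.1, h.2]
      · left; constructor <;> linarith [h.1, h.2])
    rw [neg_neg] at this
    linarith
  · rintro _ ⟨z, hz, rfl⟩
    have := (norm_lt_iff (by norm_num)).1 (mem_ball_zero_iff.1 hz)
    exact ⟨z.im, z.re, by linarith, rfl⟩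

end Crest.Agent.X212.Mor94
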