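import Crest.Agent.X212.Mor94.Upd

/-!
# Row 212, PERF-NOC (helper94): saddle connections are removed, from the top down
-/

set_option autoImplicit false
set_option linter.unusedSectionVars false
noncomputable section
open Set Filter Topology Function Metric
open scoped ContDiff Manifold

namespace Crest.Agent.X212.Mor94
open Prf6 Flo26

variable {M : Type*} [TopologicalSpace M] [ChartedSpace ℂ M] [IsManifold IC ∞ M] [T2Space M]
  [CompactSpace M] {o : Or M} {p q x : M}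

/-- the forward orbit of `x` does not converge to a saddle -/
def Fr (m : Mo o) (x : M) : Prop :=
  ∀ q ∈ m.C, m.a q ≠ m.b q → ¬ Tendsto (fun t => fl m.v t x) atTop (𝓝 q)

/-- the unstable branches of `p` do not converge to a saddle -/
def Gd (m : Mo o) (p : M) : Prop := ∀ σ : ℝ, (σ = 1 ∨ σ = -1) → Fr m (m.Q p ⟨σ / 2, 0⟩)

theorem Fr.fl {m : Mo o} (h : Fr m x) (t : ℝ) : Fr m (fl m.v t x) := fun q hq hs ht =>
  h q hq hs (by
    have := ht.comp (tendsto_atTop_add_const_right atTop (-t) tendsto_id)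
    refine this.congr fun s => ?_
    simp only [comp, id, ← fl_add']
    rw [neg_add_cancel_right])

theorem Fr.of_fl {m : Mo o} {t : ℝ} (h : Fr m (Flo26.fl m.v t x)) : Fr m x := by
  have := h.fl (-t)
  rwa [← fl_add', neg_add_cancel, fl_zero m.smv] at this

theorem noc_of_gd {m : Mo o} (h : ∀ p ∈ m.C, m.a p ≠ m.b p → Gd m p) : m.Noc := by
  rintro p hp q hq hs hs' x hx ⟨h1, h2⟩
  rcases unstable m hp hs h1 with rfl | ⟨σ, hσ, t, rfl⟩
  · exact hx hp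
  · exact (h p hp hs σ hσ).fl t q hq hs' h2

/-- above the perturbation the forward orbits are unchanged -/
theorem Fr.congr {m m' : Mo o} (hf : m'.f = m.f) (hC : m'.C = m.C) (ha : m'.a = m.a)
    (hb : m'.b = m.b) {k : ℝ} (hk : ∀ y, k < m.f y → m'.v y = m.v y) (hx : k < m.f x)
    (h : Fr m x) : Fr m' x := by
  intro q hq hs ht
  rw [hC] at hq
  rw [ha, hb] at hs
  refine h q hq hs (ht.congr' ?_)
  filter_upwards [eventually_ge_atTop (0 : ℝ)] with T hT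
  refine ((fl_congr m'.smv m.smv (U := {y | k < m.f y})
    (isOpen_lt continuous_const m.smf.continuous) hk (cpl m' (T, x)) fun s hs => ?_).2).symm
  rw [uIcc_of_le hT] at hs
  have := f_le m' hs.1 x
  rw [hf] at this
  exact hx.trans_le this

/-- the level curve through the exit points -/
def lvP (σ y : ℝ) : ℂ := ⟨σ * √(1 / 3 + y ^ 2), σ * y⟩

theorem sq_sqrt' (y : ℝ) : √(1 / 3 + y ^ 2) ^ 2 = 1 / 3 + y ^ 2 := Real.sq_sqrt (by positivity)

theorem lvP_sq {σ : ℝ} (hσ : σ = 1 ∨ σ = -1) (y : ℝ) :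
    (lvP σ y).re ^ 2 = 1 / 3 + y ^ 2 ∧ (lvP σ y).im ^ 2 = y ^ 2 := by
  rcases hσ with rfl | rfl <;> simp [lvP] <;> simpa using sq_sqrt' y

theorem lvP_norm {σ y : ℝ} (hσ : σ = 1 ∨ σ = -1) (hy : y ∈ Ioo (0 : ℝ) (1 / 16)) : ‖lvP σ y‖ < 1 := by
  rw [norm_lt_iff one_pos, (lvP_sq hσ y).1, (lvP_sq hσ y).2]
  nlinarith [hy.1, hy.2]

theorem f_lvP (m : Mo o) (hp : p ∈ m.C) (hs : m.a p ≠ m.b p) {σ y : ℝ} (hσ : σ = 1 ∨ σ = -1)
    (hy : y ∈ Ioo (0 : ℝ) (1 / 16)) : m.f (m.Q p (lvP σ y)) = m.f p + m.c p / 3 := by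
  rw [m.fQ p hp _ (lvP_norm hσ hy), (sad m hp hs).1, (sad m hp hs).2, (lvP_sq hσ y).1,
    (lvP_sq hσ y).2]
  ring

/-- all but finitely many exit points are free -/
theorem exists_exit (m : Mo o) (hp : p ∈ m.C) (hs : m.a p ≠ m.b p) {δ : ℝ} (hδ : 0 < δ) :
    ∃ y ∈ Ioo (0 : ℝ) (1 / 16), y < δ ∧ ∀ σ : ℝ, (σ = 1 ∨ σ = -1) → Fr m (m.Q p (lvP σ y)) := by
  let S : Set ℝ := {1, -1}
  have hS : S.Finite := toFinite _
  let bad : M → ℝ → ℝ → Set ℝ := fun q σ τ =>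
    {y | y ∈ Ioo (0 : ℝ) (1 / 16) ∧ ∃ t, fl m.v t (m.Q q ⟨0, τ / 2⟩) = m.Q p (lvP σ y)}
  have hb : ∀ q, ∀ σ ∈ S, ∀ τ, (bad q σ τ).Finite := fun q σ hσ τ => by
    refine Subsingleton.finite ?_
    rintro y ⟨hy, t, ht⟩ y' ⟨hy', t', ht'⟩
    have h1 := eq_of_f_eq m (x := m.Q q ⟨0, τ / 2⟩) (s := t) (t := t') (by
      rw [ht, ht', f_lvP m hp hs hσ hy, f_lvP m hp hs hσ hy'])
    rw [ht, ht'] at h1
    have h2 := congrArg Complex.im (m.inj p hp (mem_ball_zero_iff.2 (lvP_norm hσ hy))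
      (mem_ball_zero_iff.2 (lvP_norm hσ hy')) h1)
    rcases hσ with rfl | rfl <;> simpa [lvP] using h2
  have hfin : (⋃ q ∈ (m.C : Set M), ⋃ σ ∈ S, ⋃ τ ∈ S, bad q σ τ).Finite :=
    m.C.finite_toSet.biUnion fun q _ => hS.biUnion fun σ hσ => hS.biUnion fun τ _ => hb q σ hσ τ
  obtain ⟨y, hy, hy'⟩ := ((Ioo_infinite (a := (0 : ℝ)) (b := min (1 / 16) δ)
    (lt_min (by norm_num) hδ)).sdiff hfin).nonempty
  have hy0 : y ∈ Ioo (0 : ℝ) (1 / 16) := ⟨hy.1, hy.2.trans_le (min_le_left _ _)⟩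
  refine ⟨y, hy0, hy.2.trans_le (min_le_right _ _), fun σ hσ q hq hsq ht => ?_⟩
  rcases stable m hq hsq ht with h | ⟨τ, hτ, h⟩
  · have h1 : m.Q p (lvP σ y) ∈ m.Q q '' ball 0 1 :=
      ⟨0, mem_ball_self one_pos, (m.ctr q hq).trans h.symm⟩
    have h2 : m.Q p (lvP σ y) ∈ m.Q p '' ball 0 1 :=
      ⟨_, mem_ball_zero_iff.2 (lvP_norm hσ hy0), rfl⟩
    by_cases hpq : p = q
    · subst hpq
      have h3 := f_lvP m hp hs hσ hy0
      rw [h] at h3
      linarith [m.cpos p hp]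
    · exact disjoint_left.1 (m.dis p hp q hq hpq) h2 h1
  · exact hy' (mem_iUnion₂.2 ⟨q, hq, mem_iUnion₂.2 ⟨σ, hσ, mem_iUnion₂.2 ⟨τ, hτ, hy0, h⟩⟩⟩)

/-- the perturbation at one saddle -/
theorem step (m : Mo o) (hp : p ∈ m.C) (hs : m.a p ≠ m.b p)
    (hc : ∀ q ∈ m.C, q ≠ p → m.c p < m.c q) :
    ∃ m' : Mo o, m'.f = m.f ∧ m'.C = m.C ∧ m'.a = m.a ∧ m'.b = m.b ∧ Gd m' p ∧
      ∀ q ∈ m.C, q ≠ p → m.a q ≠ m.b q → m.f p ≤ m.f q → Gd m q → Gd m' q := by
  obtain ⟨C, hC, hCb⟩ := dB_bd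
  obtain ⟨y, hy, hyδ, hfree⟩ := exists_exit m hp hs (δ := 1 / (16 * C)) (by positivity)
  set X := √(1 / 3 + y ^ 2) with hX
  have hX2 : X ^ 2 = 1 / 3 + y ^ 2 := sq_sqrt' y
  have hX0 : 0 < X := Real.sqrt_pos.2 (by positivity)
  have hX1 : X < 1 := by nlinarith [hy.1, hy.2]
  have hX3 : 1 / 2 < X := by nlinarith [hy.1, hy.2]
  set ε := X * y with hε
  have hε0 : 0 < ε := mul_pos hX0 hy.1
  have hε1 : ε < y := by nlinarith [hy.1]
  have hεC : ε * C < 1 / 16 := by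
    rw [lt_div_iff₀ (by positivity)] at hyδ
    nlinarith
  have hε2 : |ε| ≤ 1 / 16 := by rw [abs_of_pos hε0]; linarith [hy.2]
  have hch := ch m hp
  obtain ⟨V, hV, hVQ, hV0⟩ := hch.exists_smV (Wp_sm ε) K0_cp K0_sub (Wp_zero ε)
  obtain ⟨ha, hb⟩ := sad m hp hs
  have hc0 := m.cpos p hp
  let v : (x : M) → TangentSpace IC x := fun x => m.v x + V x
  have hvQ : ∀ z ∈ ball (0 : ℂ) 1, v (m.Q p z) = dQ (m.Q p) z (lv 1 (-1) z + Wp ε z) :=
    fun z hz => by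
      have := vQ m hp z hz
      rw [ha, hb] at this
      rw [dQ_add, ← hVQ z hz, ← this]
  have hv0 : ∀ x ∉ m.Q p '' K0, v x = m.v x := fun x hx => by simp only [v, hV0 x hx, add_zero]
  have hup : ∀ x ∉ m.C, 0 < df m.f x (v x) := fun x hx => by
    by_cases h : x ∈ m.Q p '' K0
    · obtain ⟨z, hz, rfl⟩ := h
      rw [hvQ z (K0_sub hz), df_Q m hp (K0_sub hz), ha, hb]
      refine mul_pos hc0 ?_
      have h1 : |z.im| ≤ 1 / 2 := abs_le_of_sq_le_sq' (by linarith [hz.2.2]) (by norm_num) |> abs_le.2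
      have h2 : |1 - B z.im| ≤ 1 := abs_le.2 ⟨by linarith [B_le z.im], by linarith [B_nonneg z.im]⟩
      have h3 : |z.im * (ε * deriv B z.re * (1 - B z.im))| ≤ 1 / 2 * (ε * C * 1) := by
        rw [abs_mul, abs_mul, abs_mul, abs_of_pos hε0]
        gcongr
        exact hCb _
      simp only [lv, Wp, Complex.add_re, Complex.add_im]
      nlinarith [(abs_le.1 h3).2, hz.1, sq_nonneg z.im]
    · rw [hv0 x h]; exact m.up x hx
  obtain ⟨m', e1, e2, e3, e4, e5, e6, e7, -⟩ := exists_upd m hp (l := 1 / 4) (by norm_num)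
    (by norm_num) (v := v) (m.smv.add hV) hup
    (fun q hq hqp z hz => hv0 _ fun h => disjoint_left.1 (m.dis q hq p hp hqp)
      ⟨z, mem_ball_zero_iff.2 hz, rfl⟩ (image_mono K0_sub h))
    (fun z hz => hv0 _ (by
      rintro ⟨w, hw, he⟩
      have h1 := m.inj p hp (K0_sub hw) (mem_ball_zero_iff.2 (by linarith)) he
      subst h1
      rw [norm_lt_iff (by norm_num)] at hz
      nlinarith [hw.1, sq_nonneg w.im]))
  have hk : ∀ x, m.f p + m.c p / 4 < m.f x → m'.v x = m.v x := fun x hx => by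
    rw [e2]
    refine hv0 x ?_
    rintro ⟨z, hz, rfl⟩
    rw [m.fQ p hp z (mem_ball_zero_iff.1 (K0_sub hz)), ha, hb] at hx
    nlinarith [hz.2.1, sq_nonneg z.im]
  refine ⟨m', e1, e3, e4, e5, fun σ hσ => ?_, fun q hq hqp hsq hf hG σ hσ => ?_⟩
  · have hσ2 : σ ^ 2 = 1 := by rcases hσ with rfl | rfl <;> norm_num
    have hσ0 : σ / 8 ≠ 0 := by rcases hσ with rfl | rfl <;> norm_num
    have hT : 0 ≤ Real.log (8 * X) := Real.log_nonneg (by linarith)
    have hE : Real.exp (Real.log (8 * X)) = 8 * X := Real.exp_log (by linarith)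
    have h1 := hch.fl_curve m'.smv (W := fun z => lv 1 (-1) z + Wp ε z) (by rw [e2]; exact hvQ)
      (gam_deriv hε2 hσ0) (T := Real.log (8 * X)) fun s hs => ?_
    · have h2 : gam ε (σ / 8) 0 = (1 / 4 : ℝ) • (⟨σ / 2, 0⟩ : ℂ) := by
        apply Complex.ext
        · simp [gam]; ring
        · have : B (σ / 8) = 0 := B_zero (by rw [div_pow, hσ2]; norm_num)
          simp [gam, this]
      have h3 : gam ε (σ / 8) (Real.log (8 * X)) = lvP σ y := by
        have h4 : σ / 8 * (8 * X) = σ * X := by ring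
        have h5 : B (σ * X) = 1 := B_one (by rw [mul_pow, hσ2]; nlinarith)
        apply Complex.ext
        · simp only [gam, lvP, hE, h4, ← hX]
        · simp only [gam, lvP, hE, h4, h5, hε]
          rcases hσ with rfl | rfl <;> field_simp
      rw [h2, h3, ← e7] at h1
      refine Fr.of_fl (t := Real.log (8 * X)) ?_
      rw [h1]
      refine (hfree σ hσ).congr e1 e3 e4 e5 hk ?_
      rw [f_lvP m hp hs hσ hy]
      linarith
    · rw [uIcc_of_le hT] at hs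
      rw [mem_ball_zero_iff, norm_lt_iff one_pos]
      have h2 : Real.exp s ≤ 8 * X := hE ▸ Real.exp_le_exp.2 hs.2
      have h3 : Real.exp s ^ 2 ≤ (8 * X) ^ 2 := pow_le_pow_left₀ (Real.exp_pos s).le h2 2
      have h4 := gam_im hε2 (σ / 8 * Real.exp s)
      simp only [gam]
      rw [mul_pow, div_pow σ, hσ2]
      nlinarith [hy.1, hy.2]
  · rw [(e6 q hqp).1]
    refine (hG σ hσ).congr e1 e3 e4 e5 hk ?_
    have hσ2 : σ ^ 2 = 1 := by rcases hσ with rfl | rfl <;> norm_num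
    rw [m.fQ q hq _ (by rw [norm_lt_iff one_pos, div_pow, hσ2]; norm_num), (sad m hq hsq).1,
      div_pow, hσ2]
    have := hc q hq hqp
    simp only
    nlinarith

/-- shrinking the chart at `p` -/
theorem shrink (m : Mo o) (hp : p ∈ m.C) :
    ∃ m' : Mo o, m'.f = m.f ∧ m'.C = m.C ∧ m'.a = m.a ∧ m'.b = m.b ∧
      (∀ q ∈ m.C, q ≠ p → m'.c p < m'.c q) ∧ ∀ q ≠ p, Gd m q → Gd m' q := by
  have h1 : ∀ᶠ l : ℝ in 𝓝 0, ∀ q ∈ m.C, l ^ 2 * m.c p < m.c q := by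
    refine (eventually_all_finset _).2 fun q hq => ?_
    have : ContinuousAt (fun l : ℝ => l ^ 2 * m.c p) 0 := by fun_prop
    exact this.eventually_lt continuousAt_const (by simpa using m.cpos q hq)
  obtain ⟨l, hl, hl0, hl1⟩ := ((h1.filter_mono nhdsWithin_le_nhds).and
    (Ioc_mem_nhdsGT (zero_lt_one' ℝ))).exists
  obtain ⟨m', e1, e2, e3, e4, e5, e6, -, e8⟩ := exists_upd m hp hl0 hl1 m.smv m.up
    (fun _ _ _ _ _ => rfl) fun _ _ => rfl
  refine ⟨m', e1, e3, e4, e5, fun q hq hqp => ?_, fun q hq hG σ hσ r hr hs => ?_⟩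
  · rw [e8, (e6 q hqp).2]; exact hl q hq
  · rw [e2, (e6 q hq).1]
    rw [e3] at hr
    rw [e4, e5] at hs
    exact hG σ hσ r hr hs

theorem exists_noc (m : Mo o) : ∃ m' : Mo o, m'.Noc := by
  classical
  have key : ∀ S : Finset M, S ⊆ m.C → ∃ m' : Mo o, m'.f = m.f ∧ m'.C = m.C ∧ m'.a = m.a ∧
      m'.b = m.b ∧ ∀ p ∈ S, m.a p ≠ m.b p → Gd m' p := fun S => by
    refine Finset.induction_on_min_value m.f S (fun _ => ⟨m, rfl, rfl, rfl, rfl, by simp⟩) ?_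
    intro p S hpS hmin ih hsub
    obtain ⟨m1, e1, e2, e3, e4, h1⟩ := ih ((Finset.subset_insert _ _).trans hsub)
    have hp : p ∈ m.C := hsub (Finset.mem_insert_self _ _)
    by_cases hs : m.a p = m.b p
    · refine ⟨m1, e1, e2, e3, e4, fun q hq hsq => ?_⟩
      rcases Finset.mem_insert.1 hq with rfl | hq
      · exact (hsq hs).elim
      · exact h1 q hq hsq
    obtain ⟨m2, f1, f2, f3, f4, f5, f6⟩ := shrink m1 (e2 ▸ hp)
    have g2 : m2.C = m.C := f2.trans e2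
    have g3 : m2.a = m.a := f3.trans e3
    have g4 : m2.b = m.b := f4.trans e4
    obtain ⟨m3, k1, k2, k3, k4, k5, k6⟩ := step m2 (g2 ▸ hp) (by rwa [g3, g4])
      fun q hq => f5 q (f2 ▸ hq)
    refine ⟨m3, k1.trans (f1.trans e1), k2.trans g2, k3.trans g3, k4.trans g4, fun q hq hsq => ?_⟩
    rcases Finset.mem_insert.1 hq with rfl | hq'
    · exact k5
    · have hqp : q ≠ p := fun h => hpS (h ▸ hq')
      exact k6 q (g2 ▸ hsub hq) hqp (by rwa [g3, g4]) (by rw [f1, e1]; exact hmin q hq')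
        (f6 q hqp (h1 q hq' hsq))
  obtain ⟨m', -, e2, e3, e4, h⟩ := key m.C subset_rfl
  exact ⟨m', noc_of_gd fun p hp hs => h p (e2 ▸ hp) (by rwa [← e3, ← e4])⟩

/-- **NOC** -/
theorem noc : Prf6.Noc := fun _ ⟨m⟩ => exists_noc m

end Crest.Agent.X212.Mor94
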