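import Crest.Agent.X212.Mor94.Sard
import Crest.Agent.X212.Mor94.Noc

/-!
# Row 212, PERF-MORSE (helper94): existence of `Mo`
-/

set_option autoImplicit false
set_option linter.unusedSectionVars false
noncomputable section
open Set Filter Topology Function Metric
open scoped ContDiff Manifold

namespace Crest.Agent.X212.Mor94
open Prf6 Flo26

variable {M : Type*} [TopologicalSpace M] [ChartedSpace ℂ M] [IsManifold IC ∞ M] [T2Space M]
  [CompactSpace M]

/-- the local data at a critical point -/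
structure LD (o : Or M) (f : M → ℝ) (W : Set M) (p : M) (Q : ℂ → M) (a b c : ℝ) (G : M → ℝ) :
    Prop where
  ctr : Q 0 = p
  pc : PC o Q (ball 0 3)
  map : MapsTo Q (ball 0 3) W
  cpos : 0 < c
  ab : (a = 1 ∧ b = 1) ∨ (a = -1 ∧ b = -1) ∨ (a = 1 ∧ b = -1)
  sm : ContMDiff IC IR ∞ G
  off : ∀ y ∉ Q '' closedBall 0 2, G y = 0
  quad : ∀ z : ℂ, ‖z‖ < 1 → f (Q z) + G (Q z) = f p + c * (a * z.re ^ 2 + b * z.im ^ 2)
  up : ∀ z : ℂ, ‖z‖ < 3 → z ≠ 0 → 0 < fderiv ℝ (fun z => f (Q z) + G (Q z)) z (lv a b z)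

theorem b23 : closedBall (0 : ℂ) 2 ⊆ ball 0 3 := closedBall_subset_ball (by norm_num)

theorem exists_LD {o : Or M} {f : M → ℝ} (hf : ContMDiff IC IR ∞ f) {R : ℂ → M}
    (hR : Pm oC o R 0) (h0 : df f (R 0) = 0)
    (hn : ∀ v, fderiv ℝ (fderiv ℝ (f ∘ R)) 0 v = 0 → v = 0) {W : Set M} (hW : W ∈ 𝓝 (R 0)) :
    ∃ Q a b c G, LD o f W (R 0) Q a b c G := by
  obtain ⟨U, hU0, hU, hm⟩ := exists_pc hR hW
  obtain ⟨T, a, b, c, h, h1, h2, h3, h4, h5, h6, h7, h8⟩ := loc (g := f ∘ R) hU.op hU0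
    (fun z hz => (hU.ch.comp_sm hz hf).contDiffWithinAt)
    ((hU.ch.df_eq_zero hU0 ((hf _).mdifferentiableAt (by simp))).1 h0) hn
  have hQ := hU.comp (pm_lin T h1) T.injective isOpen_ball h4
  obtain ⟨G, g1, g2, g3⟩ := hQ.ch.exists_fun h5 (isCompact_closedBall 0 2) b23 fun z _ => h6 z
  refine ⟨R ∘ T, a, b, c, G, by simp, hQ, hm.comp h4, h2, h3, g1, g3, fun z hz => ?_,
    fun z hz hz0 => ?_⟩
  · rw [g2 z (mem_ball_zero_iff.2 (by linarith))]
    exact h7 z hz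
  · refine (h8 z hz hz0).trans_eq (DFunLike.congr_fun (Filter.EventuallyEq.fderiv_eq ?_) _)
    filter_upwards [isOpen_ball.mem_nhds (mem_ball_zero_iff.2 hz)] with y hy
    rw [g2 y hy]; rfl

theorem exists_mo [Nonempty M] (o : Or M) : Nonempty (Mo o) := by
  classical
  obtain ⟨f0, hf0, hnd⟩ := exists_nd o
  have hfin := finite_crit hf0 hnd
  obtain ⟨W, hW, hdis⟩ := hfin.t2_separation
  let C := hfin.toFinset
  have hC : ∀ p, p ∈ C ↔ df f0 p = 0 := fun p => hfin.mem_toFinset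
  have ex : ∀ p ∈ C, ∃ Q a b c G, LD o f0 (W p) p Q a b c G := fun p hp => by
    obtain ⟨R, rfl, h1, h2⟩ := hnd p ((hC p).1 hp)
    exact exists_LD hf0 h1 ((hC _).1 hp) h2 ((hW _).2.mem_nhds (hW _).1)
  choose! Q a b c G hL using ex
  have sep : ∀ p ∈ C, ∀ q ∈ C, ∀ z ∈ ball (0 : ℂ) 3, ∀ w ∈ ball (0 : ℂ) 3, Q p z = Q q w → p = q :=
    fun p hp q hq z hz w hw h => by
      by_contra hpq
      exact disjoint_left.1 (hdis ((hC p).1 hp) ((hC q).1 hq) hpq) ((hL p hp).map hz)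
        (h ▸ (hL q hq).map hw)
  let f : M → ℝ := fun x => f0 x + ∑ p ∈ C, G p x
  have hf : ContMDiff IC IR ∞ f := hf0.add (contMDiff_finsetSum fun p hp => (hL p hp).sm)
  have md : ∀ x, MDifferentiableAt IC IR f x := fun x => (hf x).mdifferentiableAt (by simp)
  have fQ : ∀ p ∈ C, ∀ z ∈ ball (0 : ℂ) 3, f (Q p z) = f0 (Q p z) + G p (Q p z) :=
    fun p hp z hz => by
      simp only [f]
      rw [Finset.sum_eq_single_of_mem p hp fun q hq hqp => (hL q hq).off _ ?_]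
      rintro ⟨w, hw, h⟩
      exact hqp (sep q hq p hp w (b23 hw) z hz h)
  have upQ : ∀ p ∈ C, ∀ z ∈ ball (0 : ℂ) 3, Q p z ∉ C →
      0 < df f (Q p z) (dQ (Q p) z (lv (a p) (b p) z)) := fun p hp z hz hn => by
    rw [(hL p hp).pc.ch.df_dQ hz (md _)]
    refine ((hL p hp).up z (mem_ball_zero_iff.1 hz) fun h => hn ?_).trans_eq
      (DFunLike.congr_fun (Filter.EventuallyEq.fderiv_eq ?_) _)
    · rw [h, (hL p hp).ctr]; exact hp
    · filter_upwards [isOpen_ball.mem_nhds hz] with y hy using (fQ p hp y hy).symm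
  have hO : IsOpen (⋃ p ∈ C, Q p '' closedBall 0 2)ᶜ :=
    (C.isCompact_biUnion fun p hp =>
      (hL p hp).pc.ch.isCompact_image (isCompact_closedBall 0 2) b23).isClosed.isOpen_compl
  let t : (x : M) → Set (TangentSpace IC x) := fun x => {u | (x ∉ C → 0 < df f x u) ∧
    ∀ p ∈ C, ∀ z : ℂ, ‖z‖ < 1 → Q p z = x → (u : ℂ) = dQ (Q p) z (lv (a p) (b p) z)}
  have ht : ∀ x, Convex ℝ (t x) := fun x u hu w hw α β hα hβ hs => by
    refine ⟨fun hx => ?_, fun p hp z hz h => ?_⟩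
    · rw [map_add, map_smul, map_smul, smul_eq_mul, smul_eq_mul]
      have h1 := hu.1 hx
      have h2 := hw.1 hx
      rcases hα.eq_or_lt with rfl | h
      · rw [zero_add] at hs; rw [hs]; linarith
      · nlinarith [mul_pos h h1, mul_nonneg hβ h2.le]
    · subst h
      rw [hu.2 p hp z hz rfl, hw.2 p hp z hz rfl, ← add_smul, hs, one_smul]
  obtain ⟨v, hv⟩ := exists_contMDiffSection_forall_mem_convex_of_local (n := ⊤) (F_fiber := ℂ) IC
    (TangentSpace IC) t ht fun x => by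
    by_cases hx : ∃ p ∈ C, x ∈ Q p '' ball 0 3
    · obtain ⟨p, hp, hx⟩ := hx
      have hc := (hL p hp).pc.ch
      obtain ⟨V, h1, h2, -⟩ := hc.exists_vec (lv_sm (a p) (b p))
      refine ⟨_, (hc.isOpen_image isOpen_ball subset_rfl).mem_nhds hx, V, h1, ?_⟩
      rintro _ ⟨z, hz, rfl⟩
      rw [h2 z hz]
      refine ⟨upQ p hp z hz, fun q hq w hw h => ?_⟩
      have hw' : w ∈ ball (0 : ℂ) 3 := mem_ball_zero_iff.2 (by linarith)
      obtain rfl := sep q hq p hp w hw' z hz h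
      obtain rfl := hc.inj hw' hz h
      rfl
    · have hx2 : x ∈ (⋃ p ∈ C, Q p '' closedBall 0 2)ᶜ := fun h => by
        obtain ⟨p, hp, h⟩ := mem_iUnion₂.1 h
        exact hx ⟨p, hp, image_mono b23 h⟩
      have hxC : x ∉ C := fun h => hx ⟨x, h, 0, mem_ball_self (by norm_num), (hL x h).ctr⟩
      have h1 : df f x ≠ 0 := by
        have : f =ᶠ[𝓝 x] f0 := by
          filter_upwards [hO.mem_nhds hx2] with y hy
          simp only [f]
          rw [Finset.sum_eq_zero fun p hp => (hL p hp).off y fun h => hy (mem_iUnion₂.2 ⟨p, hp, h⟩),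
            add_zero]
        rw [df, this.mfderiv_eq]
        exact fun h => hxC ((hC x).2 h)
      obtain ⟨R, hR, rfl⟩ := exists_pm o x
      obtain ⟨U, h0, hU, hm⟩ := exists_pc hR (hO.mem_nhds hx2)
      have h2 := mt (hU.ch.df_eq_zero h0 (md _)).2 h1
      obtain ⟨w, hw⟩ : ∃ w, 0 < fderiv ℝ (f ∘ R) 0 w := by
        by_contra h
        push Not at h
        refine h2 (ContinuousLinearMap.ext fun w => le_antisymm (h w) ?_)
        have := h (-w)
        rw [map_neg] at this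
        simpa using this
      have h3 : ∀ᶠ z in 𝓝 (0 : ℂ), 0 < fderiv ℝ (f ∘ R) z w :=
        continuousAt_const.eventually_lt
          ((dd (hU.ch.comp_sm h0 hf)).continuousAt.clm_apply continuousAt_const) hw
      obtain ⟨U', k1, k2, k3⟩ := _root_.eventually_nhds_iff.1 (h3.and (hU.op.mem_nhds h0))
      have hc := hU.ch.mono k2 fun z hz => (k1 z hz).2
      obtain ⟨V, e1, e2, -⟩ := hc.exists_vec (contDiff_const (c := w))
      refine ⟨_, hc.image_nhds k3 (k2.mem_nhds k3), V, e1, ?_⟩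
      rintro _ ⟨z, hz, rfl⟩
      rw [e2 z hz]
      refine ⟨fun _ => ?_, fun q hq y hy h => (hm (k1 z hz).2 ?_).elim⟩
      · rw [hc.df_dQ hz (md _)]; exact (k1 z hz).1
      · exact mem_iUnion₂.2 ⟨q, hq, y, mem_closedBall_zero_iff.2 (by linarith), h⟩
  have b13 : ball (0 : ℂ) 1 ⊆ ball 0 3 := ball_subset_ball (by norm_num)
  refine ⟨⟨f, v, C, Q, a, b, c, fun p hp => (hL p hp).cpos, hf, v.contMDiff,
    fun x hx => (hv x).1 hx, fun p hp => (hL p hp).ab,
    fun p hp z hz => (hL p hp).pc.pm z (b13 (mem_ball_zero_iff.2 hz)),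
    fun p hp => (hL p hp).pc.inj.mono b13, fun p hp => (hL p hp).ctr, fun p hp q hq hpq => ?_,
    fun p hp z hz => ?_, fun p hp z hz => (hv _).2 p hp z hz rfl⟩⟩
  · rw [disjoint_left]
    rintro _ ⟨z, hz, rfl⟩ ⟨w, hw, h⟩
    exact hpq (sep p hp q hq z (b13 hz) w (b13 hw) h.symm)
  · have h1 := fQ p hp 0 (mem_ball_self (by norm_num))
    rw [(hL p hp).quad 0 (by simp), (hL p hp).ctr] at h1
    rw [fQ p hp z (b13 (mem_ball_zero_iff.2 hz)), (hL p hp).quad z hz, h1]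
    simp

/-- **MORSE** -/
theorem morse : Prf6.Morse := fun X => exists_mo X.o

end Crest.Agent.X212.Mor94
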