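import Crest.Agent.X212.Prf6.Defs

/-!
# Row 212, PERF-MORSE (helper94): charts on open subsets of `ℂ`, push-forward of fields and functions
-/

set_option autoImplicit false
set_option linter.unusedSectionVars false
noncomputable section
open Set Filter Topology Function
open scoped ContDiff Manifold

namespace Crest.Agent.X212.Mor94
open Prf6 Flo26

variable {M : Type*} [TopologicalSpace M] [ChartedSpace ℂ M]

/-- an injective local diffeomorphism on the open set `U` -/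
structure Ch (Q : ℂ → M) (U : Set ℂ) : Prop where
  op : IsOpen U
  ld : ∀ z ∈ U, IsLocalDiffeomorphAt IC IC ∞ Q z
  inj : InjOn Q U

/-- the differential of a chart -/
def dQ (Q : ℂ → M) (z w : ℂ) : TangentSpace IC (Q z) := mfderiv IC IC Q z w

/-- the differential of a function -/
def df (f : M → ℝ) (x : M) : TangentSpace IC x →L[ℝ] ℝ := mfderiv IC IR f x

theorem dQ_add (Q : ℂ → M) (z w w' : ℂ) : dQ Q z (w + w') = dQ Q z w + dQ Q z w' :=
  (mfderiv IC IC Q z).map_add w w'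

theorem dQ_zero (Q : ℂ → M) (z : ℂ) : dQ Q z 0 = 0 := (mfderiv IC IC Q z).map_zero

namespace Ch
variable {Q : ℂ → M} {U V : Set ℂ} {z : ℂ}

theorem mono (h : Ch Q U) (hV : IsOpen V) (hVU : V ⊆ U) : Ch Q V :=
  ⟨hV, fun z hz => h.ld z (hVU hz), h.inj.mono hVU⟩

theorem smAt (h : Ch Q U) (hz : z ∈ U) : ContMDiffAt IC IC ∞ Q z := (h.ld z hz).contMDiffAt

theorem mdAt (h : Ch Q U) (hz : z ∈ U) : MDifferentiableAt IC IC Q z :=
  (h.smAt hz).mdifferentiableAt (by simp)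

theorem smOn (h : Ch Q U) : ContMDiffOn IC IC ∞ Q U := fun _ hz => (h.smAt hz).contMDiffWithinAt

theorem contOn (h : Ch Q U) : ContinuousOn Q U := h.smOn.continuousOn

theorem image_nhds (h : Ch Q U) (hz : z ∈ U) (hV : V ∈ 𝓝 z) : Q '' V ∈ 𝓝 (Q z) := by
  have h0 := h.ld z hz
  have h1 : h0.localInverse (Q z) = z := h0.localInverse_left_inv h0.localInverse_mem_target
  have h2 : ∀ᶠ y in 𝓝 (Q z), h0.localInverse y ∈ V :=
    h0.localInverse_contMDiffAt.continuousAt.eventually (by rw [h1]; exact hV)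
  filter_upwards [h2, h0.localInverse_eventuallyEq_right] with y hy hy'
  exact ⟨_, hy, hy'⟩

theorem isOpen_image (h : Ch Q U) (hV : IsOpen V) (hVU : V ⊆ U) : IsOpen (Q '' V) := by
  rw [isOpen_iff_mem_nhds]
  rintro _ ⟨z, hz, rfl⟩
  exact h.image_nhds (hVU hz) (hV.mem_nhds hz)

theorem isCompact_image (h : Ch Q U) (hV : IsCompact V) (hVU : V ⊆ U) : IsCompact (Q '' V) :=
  hV.image_of_continuousOn (h.contOn.mono hVU)

theorem iv_apply (h : Ch Q U) (hz : z ∈ U) : invFunOn Q U (Q z) = z := h.inj.leftInvOn_invFunOn hz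

theorem iv_sm (h : Ch Q U) (hz : z ∈ U) : ContMDiffAt IC IC ∞ (invFunOn Q U) (Q z) := by
  refine Cyl58.contMDiffAt_of_comp (h.ld z hz) (contMDiffAt_id.congr_of_eventuallyEq ?_)
  filter_upwards [h.op.mem_nhds hz] with w hw using h.iv_apply hw

/-- chain rule -/
theorem df_dQ (h : Ch Q U) (hz : z ∈ U) {f : M → ℝ} (hf : MDifferentiableAt IC IR f (Q z)) (w : ℂ) :
    df f (Q z) (dQ Q z w) = fderiv ℝ (f ∘ Q) z w := by
  rw [← mfderiv_eq_fderiv, mfderiv_comp z hf (h.mdAt hz)]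
  rfl

theorem dQ_surj (h : Ch Q U) (hz : z ∈ U) (u : TangentSpace IC (Q z)) : ∃ w, dQ Q z w = u :=
  ((h.ld z hz).mfderivToContinuousLinearEquiv (by simp)).surjective u

theorem df_eq_zero (h : Ch Q U) (hz : z ∈ U) {f : M → ℝ} (hf : MDifferentiableAt IC IR f (Q z)) :
    df f (Q z) = 0 ↔ fderiv ℝ (f ∘ Q) z = 0 := by
  constructor
  · intro h0
    ext1 w
    rw [← h.df_dQ hz hf, h0]; rfl
  · intro h0
    ext1 u
    obtain ⟨w, rfl⟩ := h.dQ_surj hz u
    rw [h.df_dQ hz hf, h0]; rfl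

theorem comp_sm (h : Ch Q U) (hz : z ∈ U) {f : M → ℝ} (hf : ContMDiff IC IR ∞ f) :
    ContDiffAt ℝ ∞ (f ∘ Q) z := contMDiffAt_iff_contDiffAt.1 ((hf _).comp z (h.smAt hz))

/-- push-forward of a function with compact support -/
theorem exists_fun [T2Space M] (h : Ch Q U) {g : ℂ → ℝ} (hg : ContDiffOn ℝ ∞ g U) {K : Set ℂ}
    (hK : IsCompact K) (hKU : K ⊆ U) (h0 : ∀ z ∈ U, z ∉ K → g z = 0) :
    ∃ G : M → ℝ, ContMDiff IC IR ∞ G ∧ (∀ z ∈ U, G (Q z) = g z) ∧ ∀ y ∉ Q '' K, G y = 0 := by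
  classical
  let G : M → ℝ := fun y => if y ∈ Q '' U then g (invFunOn Q U y) else 0
  have h1 : ∀ z ∈ U, G (Q z) = g z := fun z hz => by
    simp only [G, if_pos (mem_image_of_mem Q hz), h.iv_apply hz]
  have h2 : ∀ y ∉ Q '' K, G y = 0 := fun y hy => by
    by_cases hU : y ∈ Q '' U
    · obtain ⟨z, hz, rfl⟩ := hU
      rw [h1 z hz, h0 z hz fun hk => hy ⟨z, hk, rfl⟩]
    · exact if_neg hU
  refine ⟨G, fun y => ?_, h1, h2⟩
  by_cases hy : y ∈ Q '' K
  · obtain ⟨z, hz, rfl⟩ := hy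
    refine Cyl58.contMDiffAt_of_comp (h.ld z (hKU hz)) ?_
    refine (contMDiffAt_iff_contDiffAt.2
      (hg.contDiffAt (h.op.mem_nhds (hKU hz)))).congr_of_eventuallyEq ?_
    filter_upwards [h.op.mem_nhds (hKU hz)] with w hw using h1 w hw
  · refine (contMDiffAt_const (c := (0 : ℝ))).congr_of_eventuallyEq ?_
    filter_upwards [(h.isCompact_image hK hKU).isClosed.isOpen_compl.mem_nhds hy] with w hw
    exact h2 w hw

variable [IsManifold IC ∞ M]

/-- push-forward of a field -/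
theorem exists_vec (h : Ch Q U) {W : ℂ → ℂ} (hW : ContDiff ℝ ∞ W) :
    ∃ V : (y : M) → TangentSpace IC y,
      ContMDiffOn IC IC.tangent ∞ (fun y => (⟨y, V y⟩ : TangentBundle IC M)) (Q '' U) ∧
      (∀ z ∈ U, V (Q z) = dQ Q z (W z)) ∧ ∀ y ∉ Q '' U, V y = 0 := by
  classical
  let V : (y : M) → TangentSpace IC y := fun y =>
    if y ∈ Q '' U then (dQ Q (invFunOn Q U y) (W (invFunOn Q U y)) : ℂ) else 0
  have h1 : ∀ z ∈ U, V (Q z) = dQ Q z (W z) := fun z hz =>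
    (if_pos (mem_image_of_mem Q hz)).trans
      (congrArg (fun w => (dQ Q w (W w) : ℂ)) (h.iv_apply hz))
  refine ⟨V, ?_, h1, fun y hy => if_neg hy⟩
  rintro _ ⟨z, hz, rfl⟩
  refine (Cyl58.contMDiffAt_of_comp (h.ld z hz) ?_).contMDiffWithinAt
  have h2 := h.smOn.contMDiffOn_tangentMapWithin (m := ∞) (by simp) h.op.uniqueMDiffOn
  have h3 : SmV IC (M := ℂ) W := smV_model.2 hW
  have h4 := (h2.comp (s := U) h3.contMDiffOn fun w hw => hw).contMDiffAt (h.op.mem_nhds hz)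
  refine h4.congr_of_eventuallyEq ?_
  filter_upwards [h.op.mem_nhds hz] with w hw
  simp only [comp, tangentMapWithin, h1 w hw, dQ]
  rw [mfderivWithin_of_isOpen h.op hw]

/-- push-forward of a field with compact support -/
theorem exists_smV [T2Space M] (h : Ch Q U) {W : ℂ → ℂ} (hW : ContDiff ℝ ∞ W) {K : Set ℂ}
    (hK : IsCompact K) (hKU : K ⊆ U) (h0 : ∀ z ∉ K, W z = 0) :
    ∃ V : (y : M) → TangentSpace IC y, SmV IC V ∧
      (∀ z ∈ U, V (Q z) = dQ Q z (W z)) ∧ ∀ y ∉ Q '' K, V y = 0 := by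
  obtain ⟨V, h1, h2, h3⟩ := h.exists_vec hW
  have h4 : ∀ y ∉ Q '' K, V y = 0 := fun y hy => by
    by_cases hU : y ∈ Q '' U
    · obtain ⟨z, hz, rfl⟩ := hU
      rw [h2 z hz, h0 z fun hk => hy ⟨z, hk, rfl⟩, dQ_zero]
    · exact h3 y hU
  refine ⟨V, fun y => ?_, h2, h4⟩
  by_cases hy : y ∈ Q '' K
  · exact h1.contMDiffAt ((h.isOpen_image h.op subset_rfl).mem_nhds (image_mono hKU hy))
  · refine (SmV.zero (I := IC) y).congr_of_eventuallyEq ?_
    filter_upwards [(h.isCompact_image hK hKU).isClosed.isOpen_compl.mem_nhds hy] with w hw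
    rw [h4 w hw]

set_option backward.isDefEq.respectTransparency false in
/-- integral curves in a chart -/
theorem fl_curve [T2Space M] (h : Ch Q U) {v : (y : M) → TangentSpace IC y} (hv : SmV IC v)
    {W : ℂ → ℂ} (hW : ∀ z ∈ U, v (Q z) = dQ Q z (W z)) {g : ℝ → ℂ}
    (hg : ∀ s, HasDerivAt g (W (g s)) s) {T : ℝ} (hT : ∀ s ∈ uIcc 0 T, g s ∈ U) :
    fl v T (Q (g 0)) = Q (g T) := by
  refine (fl_of_curve hv (γ := fun s => Q (g s)) (T := T) fun s hs => ?_).2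
  filter_upwards [(hg s).continuousAt.preimage_mem_nhds (h.op.mem_nhds (hT s hs))] with r hr
  rw [hW _ hr]
  have h1 : HasMFDerivAt IR IC g r ((1 : ℝ →L[ℝ] ℝ).smulRight (W (g r))) :=
    hasMFDerivAt_iff_hasFDerivAt.2 (hg r).hasFDerivAt
  refine ((h.mdAt hr).hasMFDerivAt.comp r h1).congr_mfderiv ?_
  ext
  simp [dQ]

end Ch

/-- rescaling of a chart -/
theorem dQ_scale {Q : ℂ → M} {l : ℝ} {z : ℂ} (h : MDifferentiableAt IC IC Q (l • z)) (w : ℂ) :
    (dQ (fun u => Q (l • u)) z w : ℂ) = dQ Q (l • z) (l • w) := by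
  have h1 : HasMFDerivAt IC IC (fun u : ℂ => l • u) z (l • ContinuousLinearMap.id ℝ ℂ) :=
    hasMFDerivAt_iff_hasFDerivAt.2 ((hasFDerivAt_id z).const_smul l)
  have h2 := (h.hasMFDerivAt.comp z h1).mfderiv
  exact DFunLike.congr_fun h2 w

/-- a linear isomorphism with positive determinant is positive -/
theorem pm_lin (T : ℂ ≃L[ℝ] ℂ) (hT : 0 < (T : ℂ →L[ℝ] ℂ).det) (z : ℂ) : Pm oC oC T z := by
  refine ⟨Glue52.ld_clm T z, ?_⟩
  have : dt (T : ℂ → ℂ) z = (T : ℂ →L[ℝ] ℂ).det := by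
    unfold dt
    rw [mfderiv_eq_fderiv, T.fderiv]
  rw [this]
  simpa [oC] using hT

theorem pm_scale {l : ℝ} (hl : l ≠ 0) (z : ℂ) : Pm oC oC (fun u : ℂ => l • u) z := by
  let T : ℂ ≃L[ℝ] ℂ := ContinuousLinearEquiv.smulLeft (Units.mk0 l hl)
  refine pm_lin T ?_ z
  have : (T : ℂ →L[ℝ] ℂ) = l • ContinuousLinearMap.id ℝ ℂ := by ext <;> simp [T]
  rw [this, ContinuousLinearMap.det]
  have h2 : ((l • ContinuousLinearMap.id ℝ ℂ : ℂ →L[ℝ] ℂ) : ℂ →ₗ[ℝ] ℂ) = l • LinearMap.id := rfl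
  rw [h2, LinearMap.det_smul, Complex.finrank_real_complex, LinearMap.det_id, mul_one]
  positivity

end Crest.Agent.X212.Mor94
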