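import Crest.Agent.X212.Mor94.Upd
import Crest.Agent.X212.Prf6.Bas

/-!
# Row 212, PERF-MORSE (helper94): a non-degenerate critical point in the plane is made quadratic
-/

set_option autoImplicit false
set_option linter.unusedSectionVars false
noncomputable section
open Set Filter Topology Function Metric
open scoped ContDiff Manifold

namespace Crest.Agent.X212.Mor94
open Prf6 Flo26

theorem dec (z : ℂ) : z = z.re • (1 : ℂ) + z.im • Complex.I := by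
  apply Complex.ext <;> simp

/-- an orthogonal pair for a symmetric non-degenerate form -/
theorem exists_pair (H : ℂ →L[ℝ] ℂ →L[ℝ] ℝ) (hs : ∀ u w, H u w = H w u)
    (hn : ∀ v, H v = 0 → v = 0) : ∃ u w : ℂ, H u w = 0 ∧ H u u ≠ 0 ∧ H w w ≠ 0 ∧
      u.re * w.im - w.re * u.im ≠ 0 := by
  obtain ⟨u, hu⟩ : ∃ u, H u u ≠ 0 := by
    by_contra h
    push Not at h
    refine one_ne_zero (hn 1 ?_)
    ext1 w
    have := h (1 + w)
    simp only [map_add, add_apply, h, hs w 1] at this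
    simp only [zero_apply]
    linarith
  have ex : ∀ v z : ℂ, H v z = z.re * H v 1 + z.im * H v Complex.I := fun v z => by
    conv_lhs => rw [dec z]
    simp only [map_add, map_smul, smul_eq_mul]
  let w : ℂ := ⟨-H u Complex.I, H u 1⟩
  have h1 : H u w = 0 := by rw [ex]; simp only [w]; ring
  have h2 : u.re * w.im - w.re * u.im = H u u := by rw [ex u u]; simp only [w]; ring
  refine ⟨u, w, h1, hu, fun h => hu ?_, h2 ▸ hu⟩
  have h3 : H w u = 0 := (hs _ _).trans h1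
  rw [ex] at h h3
  have h4 : H w 1 = 0 := by
    apply mul_left_cancel₀ hu
    rw [← h2]
    linear_combination w.im * h3 - u.im * h
  have h5 : H w Complex.I = 0 := by
    apply mul_left_cancel₀ hu
    rw [← h2]
    linear_combination u.re * h - w.re * h3
  have h6 : w = 0 := hn w (by ext1 z; rw [ex, h4, h5]; simp)
  rw [← h2, h6]; simp

theorem exists_unit {α : ℝ} (h : α ≠ 0) : ∃ l a : ℝ, 0 < l ∧ l ^ 2 * α = 2 * a ∧
    ((a = 1 ∧ 0 < α) ∨ (a = -1 ∧ α < 0)) := by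
  have h1 : 0 < |α| := abs_pos.2 h
  have h2 : √(2 / |α|) ^ 2 = 2 / |α| := Real.sq_sqrt (by positivity)
  rcases lt_or_gt_of_ne h with h3 | h3
  · refine ⟨√(2 / |α|), -1, by positivity, ?_, Or.inr ⟨rfl, h3⟩⟩
    rw [h2, abs_of_neg h3]; field_simp
  · refine ⟨√(2 / |α|), 1, by positivity, ?_, Or.inl ⟨rfl, h3⟩⟩
    rw [h2, abs_of_pos h3]; field_simp

/-- positive diagonalisation -/
theorem exists_diag (H : ℂ →L[ℝ] ℂ →L[ℝ] ℝ) (hs : ∀ u w, H u w = H w u)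
    (hn : ∀ v, H v = 0 → v = 0) : ∃ (T : ℂ →L[ℝ] ℂ) (a b : ℝ), 0 < T.det ∧
      ((a = 1 ∧ b = 1) ∨ (a = -1 ∧ b = -1) ∨ (a = 1 ∧ b = -1)) ∧
      ∀ z, H (T z) (T z) = 2 * (a * z.re ^ 2 + b * z.im ^ 2) := by
  obtain ⟨u, w, h1, h2, h3, h4, h5⟩ : ∃ u w : ℂ, H u w = 0 ∧ H u u ≠ 0 ∧ H w w ≠ 0 ∧
      u.re * w.im - w.re * u.im ≠ 0 ∧ ¬ (H u u < 0 ∧ 0 < H w w) := by
    obtain ⟨u, w, h1, h2, h3, h4⟩ := exists_pair H hs hn
    by_cases h : H u u < 0 ∧ 0 < H w w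
    · exact ⟨w, u, (hs _ _).trans h1, h3, h2, fun h' => h4 (by linarith), fun h' => by
        linarith [h.1, h'.2]⟩
    · exact ⟨u, w, h1, h2, h3, h4, h⟩
  obtain ⟨u, w, h1, h2, h3, h4, h5⟩ : ∃ u w : ℂ, H u w = 0 ∧ H u u ≠ 0 ∧ H w w ≠ 0 ∧
      0 < u.re * w.im - w.re * u.im ∧ ¬ (H u u < 0 ∧ 0 < H w w) := by
    rcases lt_or_gt_of_ne h4 with h | h
    · exact ⟨u, -w, by simp [h1], h2, by simpa using h3, by simp; linarith, by simpa using h5⟩
    · exact ⟨u, w, h1, h2, h3, h, h5⟩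
  obtain ⟨l, a, hl, ha, ha'⟩ := exists_unit h2
  obtain ⟨k, b, hk, hb, hb'⟩ := exists_unit h3
  refine ⟨Complex.reCLM.smulRight (l • u) + Complex.imCLM.smulRight (k • w), a, b, ?_, ?_,
    fun z => ?_⟩
  · rw [det_C]
    simp
    nlinarith [mul_pos (mul_pos hl hk) h4]
  · rcases ha' with ⟨rfl, ha'⟩ | ⟨rfl, ha'⟩ <;> rcases hb' with ⟨rfl, hb'⟩ | ⟨rfl, hb'⟩
    · simp
    · simp
    · exact (h5 ⟨ha', hb'⟩).elim
    · simp
  · simp only [add_apply, ContinuousLinearMap.smulRight_apply, map_add,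
      map_smul, smul_apply, smul_eq_mul, Complex.reCLM_apply,
      Complex.imCLM_apply, hs w u, h1]
    linear_combination z.re ^ 2 * ha + z.im ^ 2 * hb

/-- second order Taylor estimate -/
theorem taylor {g : ℂ → ℝ} {U : Set ℂ} (hU : IsOpen U) (h0 : 0 ∈ U) (hg : ContDiffOn ℝ ∞ g U)
    (hd : fderiv ℝ g 0 = 0) {H : ℂ →L[ℝ] ℂ →L[ℝ] ℝ} (hH : H = fderiv ℝ (fderiv ℝ g) 0)
    (hs : ∀ u w, H u w = H w u) {η : ℝ} (hη : 0 < η) :
    ∃ ρ > 0, ball 0 ρ ⊆ U ∧ ∀ z : ℂ, ‖z‖ < ρ →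
      HasFDerivAt (fun z => g z - g 0 - H z z / 2) (fderiv ℝ g z - H z) z ∧
      ‖fderiv ℝ g z - H z‖ ≤ η * ‖z‖ ∧ |g z - g 0 - H z z / 2| ≤ η * ‖z‖ ^ 2 := by
  have h1 : HasFDerivAt (fderiv ℝ g) H 0 := by
    rw [hH]
    exact (((hg.contDiffAt (hU.mem_nhds h0)).fderiv_right (m := 1)
      (WithTop.coe_le_coe.2 (le_top (a := (2 : ℕ∞))))).differentiableAt (by simp)).hasFDerivAt
  have h2 := (Asymptotics.isLittleO_iff.1 h1.isLittleO) hη
  simp only [hd, sub_zero] at h2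
  obtain ⟨ρ, hρ, h3⟩ := Metric.eventually_nhds_iff_ball.1 (h2.and (hU.mem_nhds h0))
  have h4 : ∀ z ∈ ball (0 : ℂ) ρ,
      HasFDerivAt (fun z => g z - g 0 - H z z / 2) (fderiv ℝ g z - H z) z := fun z hz => by
    have h5 := ((hg.contDiffAt (hU.mem_nhds (h3 z hz).2)).differentiableAt (by simp)).hasFDerivAt
    have h6 := (H.hasFDerivAt (x := z)).clm_apply (hasFDerivAt_id z)
    have h7 := (h5.sub_const (g 0)).sub (h6.const_mul (1 / 2))
    refine HasFDerivAt.congr_fderiv (h7.congr_of_eventuallyEq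
      (Eventually.of_forall fun y => by simp; ring)) ?_
    ext1 w
    simp [hs w z]
    ring
  refine ⟨ρ, hρ, fun z hz => (h3 z hz).2, fun z hz => ?_⟩
  have hz' := mem_ball_zero_iff.2 hz
  refine ⟨h4 z hz', (h3 z hz').1, ?_⟩
  have sub : closedBall (0 : ℂ) ‖z‖ ⊆ ball 0 ρ := closedBall_subset_ball hz
  have h8 := (convex_closedBall (0 : ℂ) ‖z‖).norm_image_sub_le_of_norm_hasFDerivWithin_le
    (C := η * ‖z‖) (fun y hy => (h4 y (sub hy)).hasFDerivWithinAt)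
    (fun y hy => (h3 y (sub hy)).1.trans
      (mul_le_mul_of_nonneg_left (mem_closedBall_zero_iff.1 hy) hη.le))
    (mem_closedBall_self (norm_nonneg z)) (mem_closedBall_zero_iff.2 le_rfl)
  simp only [sub_self, map_zero, zero_div, sub_zero, Real.norm_eq_abs] at h8
  exact h8.trans_eq (by ring)

theorem norm_lv {a b : ℝ} (ha : a ^ 2 = 1) (hb : b ^ 2 = 1) (z : ℂ) : ‖lv a b z‖ = ‖z‖ := by
  rw [← sq_eq_sq₀ (norm_nonneg _) (norm_nonneg _), Complex.sq_norm, Complex.sq_norm,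
    Complex.normSq_apply, Complex.normSq_apply]
  simp only [lv]
  linear_combination z.re ^ 2 * ha + z.im ^ 2 * hb

theorem lv_sm (a b : ℝ) : ContDiff ℝ ∞ (lv a b) := by
  have h : lv a b = fun z : ℂ => (a * z.re) • (1 : ℂ) + (b * z.im) • Complex.I := by
    funext z; apply Complex.ext <;> simp [lv]
  rw [h]
  exact ((contDiff_const.mul Complex.reCLM.contDiff).smul contDiff_const).add
    ((contDiff_const.mul Complex.imCLM.contDiff).smul contDiff_const)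

/-- a bump: `1` on the unit ball, `0` off the ball of radius `2` -/
def bp : ContDiffBump (0 : ℂ) := ⟨1, 2, one_pos, one_lt_two⟩

theorem bp_one {z : ℂ} (h : ‖z‖ < 1) : bp z = 1 :=
  bp.one_of_mem_closedBall (mem_closedBall_zero_iff.2 h.le)

theorem bp_zero {z : ℂ} (h : z ∉ closedBall (0 : ℂ) 2) : bp z = 0 :=
  bp.zero_of_le_dist (le_of_lt (not_le.1 h))

/-- the local modification -/
theorem loc {g : ℂ → ℝ} {U : Set ℂ} (hU : IsOpen U) (h0 : 0 ∈ U) (hg : ContDiffOn ℝ ∞ g U)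
    (hd : fderiv ℝ g 0 = 0) (hn : ∀ v, fderiv ℝ (fderiv ℝ g) 0 v = 0 → v = 0) :
    ∃ (T : ℂ ≃L[ℝ] ℂ) (a b c : ℝ) (h : ℂ → ℝ), 0 < (T : ℂ →L[ℝ] ℂ).det ∧ 0 < c ∧
      ((a = 1 ∧ b = 1) ∨ (a = -1 ∧ b = -1) ∨ (a = 1 ∧ b = -1)) ∧ MapsTo T (ball 0 3) U ∧
      ContDiffOn ℝ ∞ h (ball 0 3) ∧ (∀ z ∉ closedBall (0 : ℂ) 2, h z = 0) ∧
      (∀ z : ℂ, ‖z‖ < 1 → g (T z) + h z = g 0 + c * (a * z.re ^ 2 + b * z.im ^ 2)) ∧
      ∀ z : ℂ, ‖z‖ < 3 → z ≠ 0 → 0 < fderiv ℝ (fun z => g (T z) + h z) z (lv a b z) := by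
  obtain ⟨H, hH⟩ : ∃ H, H = fderiv ℝ (fderiv ℝ g) 0 := ⟨_, rfl⟩
  have hs : ∀ u w, H u w = H w u := by
    rw [hH]
    exact ((hg.contDiffAt (hU.mem_nhds h0)).isSymmSndFDerivAt
      (by simpa using WithTop.coe_le_coe.2 (le_top (a := (2 : ℕ∞))))).eq
  obtain ⟨T0, a, b, hT0, hab, hq⟩ := exists_diag H hs (hH ▸ hn)
  have ha : a ^ 2 = 1 := by rcases hab with h | h | h <;> simp [h.1]
  have hb : b ^ 2 = 1 := by rcases hab with h | h | h <;> simp [h.2]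
  have hβ : ContDiff ℝ ∞ bp := bp.contDiff
  obtain ⟨C0, hC0⟩ := (isCompact_closedBall (0 : ℂ) 3).exists_bound_of_continuousOn
    (hβ.continuous_fderiv (by simp)).continuousOn
  obtain ⟨C, hC, hCb⟩ : ∃ C > (0 : ℝ), ∀ z : ℂ, ‖z‖ < 3 → ‖fderiv ℝ bp z‖ ≤ C :=
    ⟨|C0| + 1, by positivity, fun z hz =>
      (hC0 z (mem_closedBall_zero_iff.2 hz.le)).trans (by linarith [le_abs_self C0])⟩
  obtain ⟨N, hN, hNb⟩ : ∃ N > (0 : ℝ), ∀ z, ‖T0 z‖ ≤ N * ‖z‖ :=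
    ⟨‖T0‖ + 1, by positivity, fun z => (T0.le_opNorm z).trans (by nlinarith [norm_nonneg z])⟩
  obtain ⟨η, hη, hη1⟩ : ∃ η > (0 : ℝ), η * (N ^ 2 * (1 + 3 * C)) = 1 :=
    ⟨1 / (N ^ 2 * (1 + 3 * C)), by positivity, by field_simp⟩
  obtain ⟨ρ0, hρ0, hsub, hest⟩ := taylor hU h0 hg hd hH hs hη
  obtain ⟨ρ, hρ, hρ1⟩ : ∃ ρ > (0 : ℝ), ρ * N * 3 = ρ0 := ⟨ρ0 / (N * 3), by positivity, by field_simp⟩
  have hdet : 0 < (ρ • T0).det := by
    rw [det_C] at hT0 ⊢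
    simp only [smul_apply, Complex.smul_re, Complex.smul_im, smul_eq_mul]
    nlinarith [mul_pos (mul_pos hρ hρ) hT0]
  let T : ℂ ≃L[ℝ] ℂ := (ρ • T0).toContinuousLinearEquivOfDetNeZero hdet.ne'
  have hT : ∀ z, T z = ρ • T0 z := fun z => rfl
  have hTn : ∀ z, ‖T z‖ ≤ ρ * N * ‖z‖ := fun z => by
    rw [hT, norm_smul, Real.norm_of_nonneg hρ.le, mul_assoc]
    exact mul_le_mul_of_nonneg_left (hNb z) hρ.le
  have hT3 : ∀ z : ℂ, ‖z‖ < 3 → ‖T z‖ < ρ0 := fun z hz =>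
    (hTn z).trans_lt (hρ1 ▸ mul_lt_mul_of_pos_left hz (by positivity))
  let r : ℂ → ℝ := fun z => g z - g 0 - H z z / 2
  have hq' : ∀ z, H (T z) (T z) / 2 = ρ ^ 2 * (a * z.re ^ 2 + b * z.im ^ 2) := fun z => by
    simp only [hT, map_smul, smul_apply, smul_eq_mul, hq]; ring
  have hF : (fun z => g (T z) + -(bp z * r (T z))) = fun z =>
      (g 0 + ρ ^ 2 * (a * z.re ^ 2 + b * z.im ^ 2)) + (1 - bp z) * r (T z) := by
    funext z
    simp only [r, hq']; ring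
  have hmap : MapsTo T (ball 0 3) U := fun z hz =>
    hsub (mem_ball_zero_iff.2 (hT3 z (mem_ball_zero_iff.1 hz)))
  refine ⟨T, a, b, ρ ^ 2, fun z => -(bp z * r (T z)), hdet, by positivity, hab, hmap, ?_,
    fun z hz => by simp [bp_zero hz], fun z hz => ?_, fun z hz hz0 => ?_⟩
  · have h1 : ContDiffOn ℝ ∞ r U := (hg.sub contDiffOn_const).sub
      ((H.contDiff.clm_apply contDiff_id).div_const 2).contDiffOn
    exact (hβ.contDiffOn.mul (h1.comp T.contDiff.contDiffOn hmap)).neg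
  · rw [congrFun hF z, bp_one hz]; ring
  · obtain ⟨e1, e2, e3⟩ := hest (T z) (hT3 z hz)
    have d1 : DifferentiableAt ℝ (fun z : ℂ => g 0 + ρ ^ 2 * (a * z.re ^ 2 + b * z.im ^ 2)) z := by
      have := Complex.reCLM.differentiableAt (x := z)
      have := Complex.imCLM.differentiableAt (x := z)
      fun_prop
    have d2 := ((hβ.differentiable (by simp) z).hasFDerivAt.const_sub 1).mul
      (e1.comp z T.hasFDerivAt)
    have d3 : HasFDerivAt (fun z : ℂ => (g 0 + ρ ^ 2 * (a * z.re ^ 2 + b * z.im ^ 2)) +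
      (1 - bp z) * r (T z)) _ z := d1.hasFDerivAt.add d2
    rw [hF, d3.fderiv]
    simp only [add_apply, smul_apply, fderiv_quad,
      ContinuousLinearMap.comp_apply, neg_apply, smul_eq_mul, comp,
      ContinuousLinearEquiv.coe_coe]
    have n0 : 0 < ‖z‖ := norm_pos_iff.2 hz0
    have n1 : 2 * a * z.re * (lv a b z).re + 2 * b * z.im * (lv a b z).im = 2 * ‖z‖ ^ 2 := by
      rw [Complex.sq_norm, Complex.normSq_apply]
      simp only [lv]
      linear_combination 2 * z.re ^ 2 * ha + 2 * z.im ^ 2 * hb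
    have n2 : |(1 - bp z) * (fderiv ℝ g (T z) - H (T z)) (T (lv a b z))| ≤
        1 * (η * (ρ * N * ‖z‖) * (ρ * N * ‖z‖)) := by
      rw [abs_mul]
      refine mul_le_mul (abs_le.2 ⟨by linarith [bp.le_one (x := z)], by linarith [bp.nonneg' z]⟩)
        ?_ (abs_nonneg _) zero_le_one
      refine ((fderiv ℝ g (T z) - H (T z)).le_opNorm _).trans (mul_le_mul
        (e2.trans (mul_le_mul_of_nonneg_left (hTn z) hη.le)) ?_ (norm_nonneg _) (by positivity))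
      simpa only [norm_lv ha hb] using hTn (lv a b z)
    have n3 : |(g (T z) - g 0 - H (T z) (T z) / 2) * -(fderiv ℝ bp z (lv a b z))| ≤
        η * (ρ * N * ‖z‖) ^ 2 * (C * 3) := by
      rw [abs_mul, abs_neg]
      refine mul_le_mul (e3.trans (mul_le_mul_of_nonneg_left
        (pow_le_pow_left₀ (norm_nonneg _) (hTn z) 2) hη.le)) ?_ (abs_nonneg _) (by positivity)
      refine ((fderiv ℝ bp z).le_opNorm _).trans (mul_le_mul (hCb z hz) ?_ (norm_nonneg _) hC.le)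
      rw [norm_lv ha hb]; exact hz.le
    have n4 : 1 * (η * (ρ * N * ‖z‖) * (ρ * N * ‖z‖)) + η * (ρ * N * ‖z‖) ^ 2 * (C * 3) =
        ρ ^ 2 * ‖z‖ ^ 2 := by linear_combination ρ ^ 2 * ‖z‖ ^ 2 * hη1
    have n5 : 0 < ρ ^ 2 * ‖z‖ ^ 2 := by positivity
    rw [n1]
    linarith [(abs_le.1 n2).1, (abs_le.1 n3).1]

end Crest.Agent.X212.Mor94
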