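import Crest.Agent.X212.Mor94.Loc

/-!
# Row 212, PERF-MORSE (helper94): a generic combination of cut-off coordinates is a Morse function
-/

set_option autoImplicit false
set_option linter.unusedSectionVars false
noncomputable section
open Set Filter Topology Function Metric MeasureTheory
open scoped ContDiff Manifold

namespace Crest.Agent.X212.Mor94
open Prf6 Flo26

/-- parametric Sard in equal dimensions -/
theorem sard {ι : Type*} [Fintype ι] [DecidableEq ι] (U : Set ℂ)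
    (Φ : ι → (ι → ℂ) → ℂ → ℂ)
    (hΦ : ∀ i s, ∀ z ∈ U, DifferentiableAt ℝ (fun p : (ι → ℂ) × ℂ => Φ i p.1 p.2) (s, z))
    (hi : ∀ i s t, Φ i (update s i t) = Φ i s) :
    ∃ s : ι → ℂ, ∀ i, ∀ z ∈ U, s i + Φ i s z = 0 → ∀ v, fderiv ℝ (Φ i s) z v = 0 → v = 0 := by
  let Ψ : ι → (ι → ℂ) → ι → ℂ := fun i σ => update σ i (-Φ i σ (σ i))
  have hΨ : ∀ i σ, σ i ∈ U → DifferentiableAt ℝ (Ψ i) σ := fun i σ h => by
    have h1 : DifferentiableAt ℝ (fun σ : ι → ℂ => Φ i σ (σ i)) σ :=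
      (hΦ i σ _ h).comp σ (f := fun σ : ι → ℂ => (σ, σ i)) (by fun_prop)
    refine differentiableAt_pi.2 fun j => ?_
    by_cases hj : j = i
    · subst hj
      simp only [Ψ, update_self]
      exact h1.neg
    · simp only [Ψ, update_of_ne hj]
      fun_prop
  let N : ι → Set (ι → ℂ) := fun i => Ψ i '' {σ | σ i ∈ U ∧ (fderiv ℝ (Ψ i) σ).det = 0}
  have hN : volume (⋃ i, N i) = 0 := measure_iUnion_null fun i =>
    addHaar_image_eq_zero_of_det_fderivWithin_eq_zero volume (f' := fderiv ℝ (Ψ i))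
      (fun σ h => (hΨ i σ h.1).hasFDerivAt.hasFDerivWithinAt) fun σ h => h.2
  obtain ⟨s, hs⟩ : ∃ s, s ∉ ⋃ i, N i := by
    by_contra h
    push Not at h
    rw [eq_univ_of_forall h] at hN
    exact (isOpen_univ.measure_pos volume univ_nonempty).ne' hN
  refine ⟨s, fun i z hz h0 v hv => ?_⟩
  have hz' : update s i z i ∈ U := by rwa [update_self]
  have e : Ψ i ∘ update s i = update s i ∘ fun t => -Φ i s t := by
    funext t
    simp only [Ψ, comp, hi, update_self, update_idem]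
  have hdet : (fderiv ℝ (Ψ i) (update s i z)).det ≠ 0 := fun h =>
    hs (mem_iUnion.2 ⟨i, update s i z, ⟨hz', h⟩, by
      rw [show Ψ i (update s i z) = _ from congrFun e z, comp_apply,
        ← eq_neg_of_add_eq_zero_left h0, update_eq_self]⟩)
  have d0 : DifferentiableAt ℝ (Φ i s) z :=
    (hΦ i s z hz).comp z (f := fun z : ℂ => (s, z)) (by fun_prop)
  have d1 := (hΨ i _ hz').hasFDerivAt.comp z (hasFDerivAt_update (𝕜 := ℝ) s z)
  have d2 := (hasFDerivAt_update (𝕜 := ℝ) s (i := i) (-Φ i s z)).comp z d0.hasFDerivAt.neg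
  rw [e] at d1
  have d3 := DFunLike.congr_fun (d1.unique d2) v
  simp only [ContinuousLinearMap.comp_apply, neg_apply, hv, neg_zero, map_zero] at d3
  have d4 := ((fderiv ℝ (Ψ i) (update s i z)).toContinuousLinearEquivOfDetNeZero hdet).injective
    (a₂ := 0) (d3.trans (map_zero _).symm)
  simpa using congrFun d4 i

variable {M : Type*} [TopologicalSpace M] [ChartedSpace ℂ M] [IsManifold IC ∞ M] {o : Or M}

/-- a positive chart on `U` -/
structure PC (o : Or M) (Q : ℂ → M) (U : Set ℂ) : Prop where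
  op : IsOpen U
  pm : ∀ z ∈ U, Pm oC o Q z
  inj : InjOn Q U

theorem PC.ch {Q : ℂ → M} {U : Set ℂ} (h : PC o Q U) : Ch Q U :=
  ⟨h.op, fun z hz => (h.pm z hz).1, h.inj⟩

theorem PC.comp {Q : ℂ → M} {U V : Set ℂ} (h : PC o Q U) {T : ℂ → ℂ} (hT : ∀ z, Pm oC oC T z)
    (hi : Injective T) (hV : IsOpen V) (hm : MapsTo T V U) : PC o (Q ∘ T) V :=
  ⟨hV, fun z hz => (h.pm _ (hm hz)).comp (hT z), h.inj.comp hi.injOn hm⟩

theorem exists_pc {e : ℂ → M} (he : Pm oC o e 0) {W : Set M} (hW : W ∈ 𝓝 (e 0)) :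
    ∃ U, 0 ∈ U ∧ PC o e U ∧ MapsTo e U W := by
  obtain ⟨Φ, hx, hΦ⟩ := he.1
  obtain ⟨U, h1, h2, h3⟩ := _root_.eventually_nhds_iff.1 (he.eventually.and
    ((he.1.contMDiffAt.continuousAt.eventually hW).and (Φ.open_source.mem_nhds hx)))
  refine ⟨U, h3, ⟨h2, fun z hz => (h1 z hz).1, fun z hz w hw h => ?_⟩, fun z hz => (h1 z hz).2.1⟩
  rw [hΦ (h1 z hz).2.2, hΦ (h1 w hw).2.2] at h
  exact Φ.injOn (h1 z hz).2.2 (h1 w hw).2.2 h

theorem exists_pc3 (o : Or M) (x : M) : ∃ R : ℂ → M, R 0 = x ∧ PC o R (ball 0 3) := by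
  obtain ⟨e, he, rfl⟩ := exists_pm o x
  obtain ⟨U, h0, hU, -⟩ := exists_pc he univ_mem
  obtain ⟨r, hr, hsub⟩ := Metric.isOpen_iff.1 hU.op 0 h0
  have hr3 : r / 3 ≠ 0 := by positivity
  refine ⟨e ∘ fun z => (r / 3) • z, by simp, hU.comp (pm_scale hr3) (smul_right_injective ℂ hr3)
    isOpen_ball fun z hz => hsub ?_⟩
  rw [mem_ball_zero_iff] at hz ⊢
  rw [norm_smul, Real.norm_of_nonneg (by positivity)]
  nlinarith

/-- the gradient of a covector -/
def Lam : (ℂ →L[ℝ] ℝ) →L[ℝ] ℂ :=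
  (ContinuousLinearMap.apply ℝ ℝ (1 : ℂ)).smulRight (1 : ℂ) +
    (ContinuousLinearMap.apply ℝ ℝ Complex.I).smulRight Complex.I

theorem two_le : (1 : WithTop ℕ∞) + 1 ≤ ∞ := WithTop.coe_le_coe.2 (le_top (a := (2 : ℕ∞)))

theorem dd {g : ℂ → ℝ} {z : ℂ} (h : ContDiffAt ℝ ∞ g z) : DifferentiableAt ℝ (fderiv ℝ g) z :=
  (h.fderiv_right (m := 1) two_le).differentiableAt (by simp)

/-- a function all of whose critical points are non-degenerate -/
theorem exists_nd [T2Space M] [CompactSpace M] (o : Or M) : ∃ f : M → ℝ, ContMDiff IC IR ∞ f ∧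
    ∀ x, df f x = 0 → ∃ R : ℂ → M, R 0 = x ∧ Pm oC o R 0 ∧
      ∀ v, fderiv ℝ (fderiv ℝ (f ∘ R)) 0 v = 0 → v = 0 := by
  classical
  choose R hR0 hR using exists_pc3 o
  have b13 : ball (0 : ℂ) 1 ⊆ ball 0 3 := ball_subset_ball (by norm_num)
  obtain ⟨t, -, ht⟩ := isCompact_univ.elim_nhds_subcover (fun x => R x '' ball 0 1) fun x _ => by
    have := (hR x).ch.image_nhds (mem_ball_self (by norm_num)) (ball_mem_nhds (0 : ℂ) one_pos)
    rwa [hR0] at this
  have ex : ∀ (l : ℂ →L[ℝ] ℝ) (i : M), ∃ u : M → ℝ, ContMDiff IC IR ∞ u ∧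
      ∀ z ∈ ball (0 : ℂ) 1, fderiv ℝ (u ∘ R i) z = l := fun l i => by
    obtain ⟨u, h1, h2, -⟩ := (hR i).ch.exists_fun (g := fun z => bp z * l z)
      (bp.contDiff.mul l.contDiff).contDiffOn (isCompact_closedBall 0 2)
      (closedBall_subset_ball (by norm_num)) fun z _ hz => by simp [bp_zero hz]
    refine ⟨u, h1, fun z hz => ?_⟩
    rw [← l.fderiv (x := z)]
    refine Filter.EventuallyEq.fderiv_eq ?_
    filter_upwards [isOpen_ball.mem_nhds hz] with y hy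
    rw [comp_apply, h2 y (b13 hy), bp_one (mem_ball_zero_iff.1 hy), one_mul]
  choose u hu hu' using ex Complex.reCLM
  choose w hw hw' using ex Complex.imCLM
  let Φ : t → (t → ℂ) → ℂ → ℂ := fun i s z => ∑ j ∈ Finset.univ.erase i,
    ((s j).re • Lam (fderiv ℝ (u j ∘ R i) z) + (s j).im • Lam (fderiv ℝ (w j ∘ R i) z))
  have hΦ1 : ∀ i s, ∀ z ∈ ball (0 : ℂ) 1,
      DifferentiableAt ℝ (fun p : (t → ℂ) × ℂ => Φ i p.1 p.2) (s, z) := fun i s z hz => by
    refine DifferentiableAt.fun_sum fun j _ => ?_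
    have h1 : ∀ g : M → ℝ, ContMDiff IC IR ∞ g → DifferentiableAt ℝ
        (fun p : (t → ℂ) × ℂ => Lam (fderiv ℝ (g ∘ R i) p.2)) (s, z) := fun g hg =>
      Lam.differentiableAt.comp (s, z)
        ((dd ((hR i).ch.comp_sm (b13 hz) hg)).comp (s, z) differentiableAt_snd)
    have h2 : DifferentiableAt ℝ (fun p : (t → ℂ) × ℂ => p.1 j) (s, z) := by fun_prop
    exact ((Complex.reCLM.differentiableAt.comp _ h2).smul (h1 _ (hu j))).add
      ((Complex.imCLM.differentiableAt.comp _ h2).smul (h1 _ (hw j)))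
  have hΦ2 : ∀ i s a, Φ i (update s i a) = Φ i s := fun i s a => by
    funext z
    refine Finset.sum_congr rfl fun j hj => ?_
    rw [update_of_ne (Finset.ne_of_mem_erase hj)]
  obtain ⟨s, hs⟩ := sard (ball 0 1) Φ hΦ1 hΦ2
  let f : M → ℝ := fun x => ∑ j : t, ((s j).re * u j x + (s j).im * w j x)
  have hf : ContMDiff IC IR ∞ f := contMDiff_finsetSum fun j _ =>
    (contMDiff_const.mul (hu j)).add (contMDiff_const.mul (hw j))
  refine ⟨f, hf, fun x hx => ?_⟩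
  obtain ⟨i, hi, z, hz, rfl⟩ := mem_iUnion₂.1 (ht (mem_univ x))
  have key : ∀ y ∈ ball (0 : ℂ) 1, Lam (fderiv ℝ (f ∘ R i) y) = s ⟨i, hi⟩ + Φ ⟨i, hi⟩ s y := by
    intro y hy
    have d : ∀ g : M → ℝ, ContMDiff IC IR ∞ g → HasFDerivAt (g ∘ R i) (fderiv ℝ (g ∘ R i) y) y :=
      fun g hg => (((hR i).ch.comp_sm (b13 hy) hg).differentiableAt (by simp)).hasFDerivAt
    have h1 : HasFDerivAt (f ∘ R i) _ y := HasFDerivAt.fun_sum (u := Finset.univ) fun (j : t) _ =>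
      ((d _ (hu j)).const_mul (s j).re).add ((d _ (hw j)).const_mul (s j).im)
    rw [h1.fderiv, map_sum, ← Finset.add_sum_erase _ _ (Finset.mem_univ ⟨i, hi⟩)]
    simp only [map_add, map_smul, hu' i y hy, hw' i y hy, Φ]
    congr 1
    apply Complex.ext <;> simp [Lam]
  have h0 : fderiv ℝ (f ∘ R i) z = 0 :=
    ((hR i).ch.df_eq_zero (b13 hz) ((hf _).mdifferentiableAt (by simp))).1 hx
  refine ⟨R i ∘ fun y => z + 1 * y, by simp, Pm.comp (by simpa using (hR i).pm z (b13 hz))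
    (pm_affine one_ne_zero z 0), fun v hv => hs ⟨i, hi⟩ z hz (by rw [← key z hz, h0, map_zero]) v ?_⟩
  have e1 : fderiv ℝ (f ∘ R i ∘ fun y => z + 1 * y) = fun y => fderiv ℝ (f ∘ R i) (z + y) := by
    funext y
    rw [← fderiv_comp_add_left]
    simp only [one_mul]
    rfl
  rw [e1, fderiv_comp_add_left, add_zero] at hv
  have e2 : Φ ⟨i, hi⟩ s =ᶠ[𝓝 z] fun y => Lam (fderiv ℝ (f ∘ R i) y) - s ⟨i, hi⟩ := by
    filter_upwards [isOpen_ball.mem_nhds hz] with y hy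
    rw [key y hy, add_sub_cancel_left]
  have e3 := (Lam.hasFDerivAt.comp z (dd ((hR i).ch.comp_sm (b13 hz) hf)).hasFDerivAt).sub_const
    (s ⟨i, hi⟩)
  rw [e2.fderiv_eq, show fderiv ℝ (fun y => Lam (fderiv ℝ (f ∘ R i) y) - s ⟨i, hi⟩) z = _ from
    e3.fderiv, ContinuousLinearMap.comp_apply, hv, map_zero]

/-- non-degenerate critical points are finite in number -/
theorem finite_crit [CompactSpace M] {f : M → ℝ} (hf : ContMDiff IC IR ∞ f)
    (h : ∀ x, df f x = 0 → ∃ R : ℂ → M, R 0 = x ∧ Pm oC o R 0 ∧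
      ∀ v, fderiv ℝ (fderiv ℝ (f ∘ R)) 0 v = 0 → v = 0) : {x | df f x = 0}.Finite := by
  have key : ∀ x, ∀ᶠ y in 𝓝 x, df f y = 0 → y = x := fun x => by
    obtain ⟨R, rfl, hR, h1⟩ : ∃ R : ℂ → M, R 0 = x ∧ Pm oC o R 0 ∧ (df f x = 0 →
        ∀ v, fderiv ℝ (fderiv ℝ (f ∘ R)) 0 v = 0 → v = 0) := by
      by_cases hx : df f x = 0
      · obtain ⟨R, h1, h2, h3⟩ := h x hx
        exact ⟨R, h1, h2, fun _ => h3⟩
      · obtain ⟨R, h2, h1⟩ := exists_pm o x
        exact ⟨R, h1, h2, fun h => (hx h).elim⟩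
    obtain ⟨U, h0, hU, -⟩ := exists_pc hR univ_mem
    have hd := dd (hU.ch.comp_sm h0 hf)
    have hz : ∀ z ∈ U, df f (R z) = 0 ↔ fderiv ℝ (f ∘ R) z = 0 := fun z hz =>
      hU.ch.df_eq_zero hz ((hf _).mdifferentiableAt (by simp))
    have h2 : ∀ᶠ z in 𝓝 (0 : ℂ), fderiv ℝ (f ∘ R) z = 0 → z = 0 := by
      by_cases hx : df f (R 0) = 0
      · obtain ⟨K, -, hK⟩ := LinearMap.exists_antilipschitzWith
          (fderiv ℝ (fderiv ℝ (f ∘ R)) 0).toLinearMap (LinearMap.ker_eq_bot'.2 (h1 hx))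
        have := hd.hasFDerivAt.eventually_ne (c := 0) ⟨K, hK⟩
        rw [eventually_nhdsWithin_iff] at this
        filter_upwards [this] with z h3 h4
        by_contra h5
        exact h3 h5 h4
      · filter_upwards [hd.continuousAt.eventually_ne (mt (hz 0 h0).2 hx)] with z h3 h4
        exact (h3 h4).elim
    filter_upwards [hU.ch.image_nhds h0 (h2.and (hU.op.mem_nhds h0))]
    rintro _ ⟨z, h3, rfl⟩ h4
    rw [h3.1 ((hz z h3.2).1 h4)]
  obtain ⟨t, -, ht⟩ := isCompact_univ.elim_nhds_subcover _ fun x _ => key x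
  refine t.finite_toSet.subset fun y hy => ?_
  obtain ⟨x, hx, h1⟩ := mem_iUnion₂.1 (ht (mem_univ y))
  rwa [h1 hy]

end Crest.Agent.X212.Mor94
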