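import Crest.Agent.X212.Mor94.Dyn

/-!
# Row 212, PERF-MORSE (helper94): changing the field of a `Mo`, the planar perturbation
-/

set_option autoImplicit false
set_option linter.unusedSectionVars false
noncomputable section
open Set Filter Topology Function Metric
open scoped ContDiff Manifold

namespace Crest.Agent.X212.Mor94
open Prf6 Flo26

theorem fderiv_quad (k c a b : ℝ) (z w : ℂ) :
    fderiv ℝ (fun z : ℂ => k + c * (a * z.re ^ 2 + b * z.im ^ 2)) z w =
      c * (2 * a * z.re * w.re + 2 * b * z.im * w.im) := by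
  have h1 := (Complex.reCLM.hasFDerivAt (x := z)).pow 2
  have h2 := (Complex.imCLM.hasFDerivAt (x := z)).pow 2
  have h3 := (((h1.const_mul a).add (h2.const_mul b)).const_mul c).const_add k
  have h4 : fderiv ℝ (fun z : ℂ => k + c * (a * z.re ^ 2 + b * z.im ^ 2)) z = _ := h3.fderiv
  rw [h4]
  simp
  ring

variable {M : Type*} [TopologicalSpace M] [ChartedSpace ℂ M] [IsManifold IC ∞ M] [T2Space M]
  [CompactSpace M] {o : Or M} (m : Mo o) {p q x : M}

theorem df_Q (hp : p ∈ m.C) {z : ℂ} (hz : z ∈ ball (0 : ℂ) 1) (w : ℂ) :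
    df m.f (m.Q p z) (dQ (m.Q p) z w) =
      m.c p * (2 * m.a p * z.re * w.re + 2 * m.b p * z.im * w.im) := by
  rw [(ch m hp).df_dQ hz ((m.smf _).mdifferentiableAt (by simp)), ← fderiv_quad (m.f p)]
  refine DFunLike.congr_fun (Filter.EventuallyEq.fderiv_eq ?_) w
  filter_upwards [isOpen_ball.mem_nhds hz] with u hu using m.fQ p hp u (mem_ball_zero_iff.1 hu)

/-- new field, chart at `p` rescaled -/
theorem exists_upd (hp : p ∈ m.C) {l : ℝ} (hl : 0 < l) (hl1 : l ≤ 1)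
    {v : (x : M) → TangentSpace IC x} (hv : SmV IC v) (up : ∀ x ∉ m.C, 0 < df m.f x (v x))
    (h1 : ∀ q ∈ m.C, q ≠ p → ∀ z : ℂ, ‖z‖ < 1 → v (m.Q q z) = m.v (m.Q q z))
    (h2 : ∀ z : ℂ, ‖z‖ < l → v (m.Q p z) = m.v (m.Q p z)) :
    ∃ m' : Mo o, m'.f = m.f ∧ m'.v = v ∧ m'.C = m.C ∧ m'.a = m.a ∧ m'.b = m.b ∧
      (∀ q ≠ p, m'.Q q = m.Q q ∧ m'.c q = m.c q) ∧ (∀ z, m'.Q p z = m.Q p (l • z)) ∧
      m'.c p = l ^ 2 * m.c p := by
  classical
  have hn : ∀ z : ℂ, ‖z‖ < 1 → ‖l • z‖ < l := fun z hz => by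
    rw [norm_smul, Real.norm_of_nonneg hl.le]; nlinarith
  have hn1 : ∀ z : ℂ, ‖z‖ < 1 → ‖l • z‖ < 1 := fun z hz => (hn z hz).trans_le hl1
  let Q : M → ℂ → M := update m.Q p fun z => m.Q p (l • z)
  have Qp : Q p = fun z => m.Q p (l • z) := update_self _ _ _
  have Qq : ∀ q ≠ p, Q q = m.Q q := fun q hq => update_of_ne hq _ _
  have sub : ∀ q, Q q '' ball 0 1 ⊆ m.Q q '' ball 0 1 := fun q => by
    by_cases hq : q = p
    · subst hq
      rintro _ ⟨z, hz, rfl⟩
      exact ⟨l • z, mem_ball_zero_iff.2 (hn1 z (mem_ball_zero_iff.1 hz)), by rw [Qp]⟩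
    · rw [Qq q hq]
  refine ⟨⟨m.f, v, m.C, Q, m.a, m.b, update m.c p (l ^ 2 * m.c p), fun q hq => ?_, m.smf, hv, up,
    m.ab, fun q hq z hz => ?_, fun q hq => ?_, fun q hq => ?_,
    fun q hq r hr hqr => (m.dis q hq r hr hqr).mono (sub q) (sub r), fun q hq z hz => ?_,
    fun q hq z hz => ?_⟩, rfl, rfl, rfl, rfl, rfl,
    fun q hq => ⟨Qq q hq, update_of_ne hq _ _⟩, fun z => congrFun Qp z,
    update_self p (l ^ 2 * m.c p) m.c⟩
  · by_cases h : q = p
    · subst h; rw [update_self]; exact mul_pos (by positivity) (m.cpos q hq)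
    · rw [update_of_ne h]; exact m.cpos q hq
  · by_cases h : q = p
    · subst h; rw [Qp]; exact (m.pos q hq _ (hn1 z hz)).comp (pm_scale hl.ne' z)
    · rw [Qq q h]; exact m.pos q hq z hz
  · by_cases h : q = p
    · subst h
      rw [Qp]
      intro z hz w hw he
      exact smul_right_injective ℂ hl.ne' (m.inj q hq
        (mem_ball_zero_iff.2 (hn1 z (mem_ball_zero_iff.1 hz)))
        (mem_ball_zero_iff.2 (hn1 w (mem_ball_zero_iff.1 hw))) he)
    · rw [Qq q h]; exact m.inj q hq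
  · by_cases h : q = p
    · subst h; rw [Qp]; simpa using m.ctr q hq
    · rw [Qq q h]; exact m.ctr q hq
  · by_cases h : q = p
    · subst h
      rw [Qp, update_self, m.fQ q hq _ (hn1 z hz)]
      simp only [Complex.smul_re, Complex.smul_im, smul_eq_mul]
      ring
    · rw [Qq q h, update_of_ne h]; exact m.fQ q hq z hz
  · by_cases h : q = p
    · subst h
      have e1 := h2 _ (hn z hz)
      have e2 := vQ m hq _ (mem_ball_zero_iff.2 (hn1 z hz))
      have e3 := dQ_scale ((ch m hq).mdAt (mem_ball_zero_iff.2 (hn1 z hz))) (lv (m.a q) (m.b q) z)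
      have e4 : lv (m.a q) (m.b q) (l • z) = l • lv (m.a q) (m.b q) z := by
        apply Complex.ext <;> simp [lv] <;> ring
      rw [e4] at e2
      rw [Qp]
      exact (e1.trans e2).trans e3.symm
    · rw [Qq q h, h1 q hq h z hz]; exact m.vQ q hq z hz

/-! ### the planar perturbation -/

/-- even cut-off: `0` for `|x| ≤ 1/4`, `1` for `|x| ≥ 1/2` -/
def B (x : ℝ) : ℝ := Real.smoothTransition ((16 * x ^ 2 - 1) / 3)

theorem B_sm : ContDiff ℝ ∞ B := Real.smoothTransition.contDiff.comp (by fun_prop)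

theorem B_zero {x : ℝ} (h : x ^ 2 ≤ 1 / 16) : B x = 0 :=
  Real.smoothTransition.zero_of_nonpos (by linarith)

theorem B_one {x : ℝ} (h : 1 / 4 ≤ x ^ 2) : B x = 1 :=
  Real.smoothTransition.one_of_one_le (by linarith)

theorem B_nonneg (x : ℝ) : 0 ≤ B x := Real.smoothTransition.nonneg _

theorem B_le (x : ℝ) : B x ≤ 1 := Real.smoothTransition.le_one _

theorem dB_sm : ContDiff ℝ ∞ (deriv B) := (contDiff_infty_iff_deriv.1 B_sm).2

theorem dB_zero {x : ℝ} (h : x ^ 2 < 1 / 16 ∨ 1 / 4 < x ^ 2) : deriv B x = 0 := by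
  rcases h with h | h
  · have : B =ᶠ[𝓝 x] fun _ => 0 := by
      filter_upwards [(isOpen_lt (f := fun x : ℝ => x ^ 2) (by fun_prop) continuous_const).mem_nhds h]
        with y hy using B_zero (le_of_lt hy)
    rw [this.deriv_eq, deriv_const]
  · have : B =ᶠ[𝓝 x] fun _ => 1 := by
      filter_upwards [(isOpen_lt (g := fun x : ℝ => x ^ 2) continuous_const (by fun_prop)).mem_nhds h]
        with y hy using B_one (le_of_lt hy)
    rw [this.deriv_eq, deriv_const]

theorem dB_bd : ∃ C > (0 : ℝ), ∀ x, |deriv B x| ≤ C := by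
  obtain ⟨C, hC⟩ := (isCompact_Icc (a := (-1 : ℝ)) (b := 1)).exists_bound_of_continuousOn
    dB_sm.continuous.continuousOn
  refine ⟨|C| + 1, by positivity, fun x => ?_⟩
  by_cases hx : x ∈ Icc (-1 : ℝ) 1
  · exact (hC x hx).trans (by linarith [le_abs_self C])
  · rw [dB_zero (Or.inr ?_), abs_zero]
    · positivity
    · rw [mem_Icc, not_and_or, not_le, not_le] at hx
      rcases hx with h | h <;> nlinarith

/-- the perturbation -/
def Wp (ε : ℝ) (z : ℂ) : ℂ := ⟨0, ε * deriv B z.re * (1 - B z.im)⟩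

theorem Wp_sm (ε : ℝ) : ContDiff ℝ ∞ (Wp ε) := by
  have h : Wp ε = fun z : ℂ => (ε * deriv B z.re * (1 - B z.im)) • Complex.I := by
    funext z; apply Complex.ext <;> simp [Wp]
  rw [h]
  exact ((contDiff_const.mul (dB_sm.comp Complex.reCLM.contDiff)).mul
    (contDiff_const.sub (B_sm.comp Complex.imCLM.contDiff))).smul contDiff_const

/-- its support -/
def K0 : Set ℂ := {z | 1 / 16 ≤ z.re ^ 2 ∧ z.re ^ 2 ≤ 1 / 4 ∧ z.im ^ 2 ≤ 1 / 4}

theorem K0_sub : K0 ⊆ ball 0 1 := fun z hz => by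
  rw [mem_ball_zero_iff, norm_lt_iff one_pos]; linarith [hz.2.1, hz.2.2]

theorem K0_cp : IsCompact K0 := by
  have h1 : Continuous fun z : ℂ => z.re ^ 2 := by fun_prop
  have h2 : Continuous fun z : ℂ => z.im ^ 2 := by fun_prop
  have h3 : IsClosed K0 := (isClosed_le continuous_const h1).inter
    ((isClosed_le h1 continuous_const).inter (isClosed_le h2 continuous_const))
  exact (isCompact_closedBall (0 : ℂ) 1).of_isClosed_subset h3 (K0_sub.trans ball_subset_closedBall)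

theorem Wp_zero (ε : ℝ) (z : ℂ) (hz : z ∉ K0) : Wp ε z = 0 := by
  have : deriv B z.re = 0 ∨ B z.im = 1 := by
    by_contra h
    rw [not_or] at h
    refine hz ⟨?_, ?_, ?_⟩ <;> by_contra h' <;> rw [not_le] at h'
    · exact h.1 (dB_zero (Or.inl h'))
    · exact h.1 (dB_zero (Or.inr h'))
    · exact h.2 (B_one h'.le)
  apply Complex.ext
  · rfl
  · rcases this with h | h <;> simp [Wp, h]

/-- the new unstable curve -/
def gam (ε x0 s : ℝ) : ℂ := ⟨x0 * Real.exp s, ε * B (x0 * Real.exp s) / (x0 * Real.exp s)⟩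

theorem gam_im {ε : ℝ} (hε : |ε| ≤ 1 / 16) (x : ℝ) : (ε * B x / x) ^ 2 ≤ 1 / 16 := by
  by_cases h : x ^ 2 ≤ 1 / 16
  · rw [B_zero h]; norm_num
  rw [not_le] at h
  rw [div_pow, div_le_iff₀ (by linarith), mul_pow, ← sq_abs ε]
  have h1 : B x ^ 2 ≤ 1 := by nlinarith [B_nonneg x, B_le x]
  have h2 : |ε| ^ 2 ≤ 1 / 256 := by nlinarith [abs_nonneg ε]
  nlinarith [sq_nonneg (|ε|), sq_nonneg (B x)]

theorem gam_deriv {ε x0 : ℝ} (hε : |ε| ≤ 1 / 16) (h0 : x0 ≠ 0) (s : ℝ) :
    HasDerivAt (gam ε x0) (lv 1 (-1) (gam ε x0 s) + Wp ε (gam ε x0 s)) s := by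
  have h1 : HasDerivAt (fun s => x0 * Real.exp s) (x0 * Real.exp s) s :=
    (Real.hasDerivAt_exp s).const_mul x0
  have hne : x0 * Real.exp s ≠ 0 := mul_ne_zero h0 (Real.exp_pos s).ne'
  have h2 := (((B_sm.differentiable (by simp) _).hasDerivAt.comp s h1).const_mul ε).div h1 hne
  have h3 := hasDerivAt_mk h1 h2
  refine HasDerivAt.congr_deriv (f := gam ε x0) h3 (Eq.symm ?_)
  have h4 := B_zero (gam_im hε (x0 * Real.exp s))
  apply Complex.ext
  · simp [lv, Wp, gam]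
  · simp only [lv, Wp, gam, Complex.add_im, h4, comp]
    field_simp
    ring

end Crest.Agent.X212.Mor94
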